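import Vale.Agent.P156.R2.Spec
import Vale.Agent.P156.H266.Limit2
import Vale.Agent.P156.H574.Cayley

/-! P156, block F: common vocabulary for the limit laws of scattering matrices. `toSU` sends a
matrix to the compact space `F.SymU ι`. -/

open Matrix MeasureTheory Filter Topology

namespace Vale.Agent.P156.H167

open Vale.Agent.P156

noncomputable section

variable {ι : Type} [Fintype ι] [DecidableEq ι]

open Classical in
/-- A symmetric unitary matrix as an element of `F.SymU` (junk value `1`). -/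
def toSU (S : Matrix ι ι ℂ) : F.SymU ι :=
  if h : S ∈ F.symU ι then ⟨S, h⟩ else ⟨1, one_mem _, transpose_one⟩

theorem coe_toSU {S : Matrix ι ι ℂ} (h : S ∈ F.symU ι) : (toSU S).1 = S := by
  rw [toSU, dif_pos h]

theorem toSU_coe (S : F.SymU ι) : toSU S.1 = S := by
  apply Subtype.ext
  exact coe_toSU S.2

/-- the Cayley transform of a real symmetric matrix, in `F.SymU`. -/
theorem cay_mem_symU {m : ℂ} (hm : m.im ≠ 0) {R : Matrix ι ι ℂ} (hR : A.RealSymm R) :
    cay m R ∈ F.symU ι := ⟨A.cay_mem_unitary hR.1 hm, A.cay_transpose hR hm⟩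

/-- from the symmetric unitary matrices of `R2` to those of `F` -/
def toF (S : SymU ι) : F.SymU ι := ⟨S.1, S.2⟩

/-- from the symmetric unitary matrices of `F` to those of `R2` -/
def ofF (S : F.SymU ι) : SymU ι := ⟨S.1, S.2⟩

theorem continuous_toF : Continuous (toF (ι := ι)) :=
  Continuous.subtype_mk continuous_subtype_val _

theorem continuous_ofF : Continuous (ofF (ι := ι)) :=
  Continuous.subtype_mk continuous_subtype_val _

theorem toF_ofF (S : F.SymU ι) : toF (ofF S) = S := rfl

theorem ofF_toF (S : SymU ι) : ofF (toF S) = S := rfl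

theorem toF_toSymU (S : Matrix ι ι ℂ) : toF (toSymU S) = toSU S := by
  classical
  apply Subtype.ext
  by_cases h : S ∈ F.symU ι
  · have h' : S ∈ Matrix.unitaryGroup ι ℂ ∧ Sᵀ = S := h
    rw [coe_toSU h, toF, toSymU, dif_pos h']
  · have h' : ¬ (S ∈ Matrix.unitaryGroup ι ℂ ∧ Sᵀ = S) := h
    rw [toSU, dif_neg h, toF, toSymU, dif_neg h']

theorem ofF_toSU (S : Matrix ι ι ℂ) : ofF (toSU S) = toSymU S := by
  rw [← toF_toSymU]
  rfl

/-- limit laws on `F.SymU` and limit functionals on `SymU`. -/
theorem isLimitLaw_iff {L : Filter ℕ} {Ω : ℕ → Type*} {s : ∀ n, Finset (Ω n)}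
    {S : ∀ n, Ω n → Matrix ι ι ℂ} {μ : Measure (F.SymU ι)} :
    Lim.IsLimitLaw L s (fun n ω => toSU (S n ω)) μ ↔
      ∀ F : C(SymU ι, ℝ), Tendsto (fun n => avg (s n) (fun ω => F (toSymU (S n ω)))) L
        (𝓝 (∫ x, F (ofF x) ∂μ)) := by
  constructor
  · intro h G
    have h1 := h (BoundedContinuousFunction.mkOfCompact ⟨fun x => G (ofF x),
      G.continuous.comp continuous_ofF⟩)
    simp only [BoundedContinuousFunction.mkOfCompact_apply, ContinuousMap.coe_mk, ofF_toSU] at h1
    exact h1
  · intro h G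
    have h1 := h ⟨fun x => G (toF x), G.continuous.comp continuous_toF⟩
    simp only [ContinuousMap.coe_mk, toF_toSymU, toF_ofF] at h1
    exact h1

end

end Vale.Agent.P156.H167
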