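import Vale.Agent.P156.R2.Defs

/-! P156, block F: averages over finite sets and the continuous mapping theorem off a null set, with
converging parameters. -/

open MeasureTheory Filter Topology Finset

namespace Vale.Agent.P156.H167

open Vale.Agent.P156

section avg

variable {α : Type*} (s : Finset α)

theorem avg_add (f g : α → ℝ) : avg s (fun x => f x + g x) = avg s f + avg s g := by
  simp only [avg, Finset.sum_add_distrib, add_div]

theorem avg_sub (f g : α → ℝ) : avg s (fun x => f x - g x) = avg s f - avg s g := by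
  simp only [avg, Finset.sum_sub_distrib, sub_div]

theorem avg_const_mul (c : ℝ) (f : α → ℝ) : avg s (fun x => c * f x) = c * avg s f := by
  simp only [avg, ← Finset.mul_sum, mul_div_assoc]

theorem avg_mono {f g : α → ℝ} (h : ∀ x ∈ s, f x ≤ g x) : avg s f ≤ avg s g := by
  unfold avg
  exact div_le_div_of_nonneg_right (Finset.sum_le_sum h) (Nat.cast_nonneg _)

theorem avg_nonneg {f : α → ℝ} (h : ∀ x ∈ s, 0 ≤ f x) : 0 ≤ avg s f :=
  div_nonneg (Finset.sum_nonneg h) (Nat.cast_nonneg _)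

theorem abs_avg_le {f g : α → ℝ} (h : ∀ x ∈ s, |f x| ≤ g x) : |avg s f| ≤ avg s g := by
  unfold avg
  rw [abs_div, abs_of_nonneg (Nat.cast_nonneg (α := ℝ) _)]
  exact div_le_div_of_nonneg_right
    ((Finset.abs_sum_le_sum_abs _ _).trans (Finset.sum_le_sum h)) (Nat.cast_nonneg _)

theorem avg_const_le {c : ℝ} (hc : 0 ≤ c) : avg s (fun _ => c) ≤ c := by
  unfold avg
  rw [Finset.sum_const, nsmul_eq_mul]
  by_cases h : (s.card : ℝ) = 0
  · rw [h]; simpa using hc
  · rw [mul_div_assoc, mul_div_cancel₀]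
    exact h

theorem avg_congr {f g : α → ℝ} (h : ∀ x ∈ s, f x = g x) : avg s f = avg s g := by
  unfold avg
  rw [Finset.sum_congr rfl h]

theorem prob_nonneg (P : α → Prop) : 0 ≤ prob s P :=
  avg_nonneg s fun x _ => by split_ifs <;> norm_num

end avg

section transfer

variable {A B Θ : Type*} [TopologicalSpace A] [CompactSpace A] [T2Space A] [MeasurableSpace A]
  [BorelSpace A] [TopologicalSpace Θ] [T2Space Θ] [LocallyCompactSpace Θ]
  [TopologicalSpace B] [CompactSpace B]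

theorem continuous_mul_off {h : Θ × A → ℝ} {V : Set (Θ × A)} (hV : IsOpen V)
    (χ : C(Θ × A, ℝ)) (hχ : tsupport χ ⊆ V) (hh : ContinuousOn h V) :
    Continuous (fun p => χ p * h p) := by
  rw [continuous_iff_continuousAt]
  intro p
  by_cases hp : p ∈ V
  · exact χ.continuous.continuousAt.mul (hh.continuousAt (hV.mem_nhds hp))
  · have h1 : ∀ᶠ q in 𝓝 p, q ∉ tsupport χ :=
      (isClosed_tsupport χ).isOpen_compl.mem_nhds (fun h => hp (hχ h))
    have h2 : (fun q => χ q * h q) =ᶠ[𝓝 p] fun _ => 0 := by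
      filter_upwards [h1] with q hq
      rw [image_eq_zero_of_notMem_tsupport hq, zero_mul]
    exact (continuousAt_const.congr h2.symm)

/-- Continuous mapping theorem along a filter, off a null set, with a converging parameter. -/
theorem transfer {l : Filter ℕ} {Ω : ℕ → Type*} (s : ∀ n, Finset (Ω n))
    (X : ∀ n, Ω n → A) (Y : ∀ n, Ω n → B) (μ : Measure A) [IsProbabilityMeasure μ]
    [μ.InnerRegularCompactLTTop]
    (hX : ∀ F : C(A, ℝ), Tendsto (fun n => avg (s n) (fun ω => F (X n ω))) l (𝓝 (∫ x, F x ∂μ)))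
    (bad : ∀ n, Ω n → Prop) (hbad : Tendsto (fun n => prob (s n) (bad n)) l (𝓝 0))
    (θ : ℕ → Θ) (θ₀ : Θ) (hθ : Tendsto θ l (𝓝 θ₀))
    (Φ : Θ × A → B) (V : Set (Θ × A)) (hV : IsOpen V) (hΦ : ContinuousOn Φ V)
    (hμV : μ {x | (θ₀, x) ∉ V} = 0)
    (hY : ∀ᶠ n in l, ∀ ω ∈ s n, ¬ bad n ω → (θ n, X n ω) ∈ V → Y n ω = Φ (θ n, X n ω))
    (G : C(B, ℝ)) (hGm : Measurable (fun x => G (Φ (θ₀, x)))) :
    Tendsto (fun n => avg (s n) (fun ω => G (Y n ω))) l (𝓝 (∫ x, G (Φ (θ₀, x)) ∂μ)) := by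
  classical
  obtain ⟨M, hM0, hM⟩ : ∃ M : ℝ, 0 ≤ M ∧ ∀ b, |G b| ≤ M := by
    by_cases hB : Nonempty B
    · obtain ⟨b₀, hb₀⟩ := (isCompact_univ (X := B)).exists_isMaxOn (Set.univ_nonempty)
        ((G.continuous.abs).continuousOn)
      exact ⟨|G b₀|, abs_nonneg _, fun b => hb₀.2 (Set.mem_univ b)⟩
    · exact ⟨0, le_refl _, fun b => (hB ⟨b⟩).elim⟩
  have hU : IsOpen {x : A | (θ₀, x) ∈ V} := hV.preimage (by fun_prop)
  have hμU : μ {x : A | (θ₀, x) ∈ V} = 1 := by
    have h1 : {x : A | (θ₀, x) ∈ V}ᶜ = {x | (θ₀, x) ∉ V} := rfl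
    have h2 := prob_compl_eq_zero_iff (μ := μ) hU.measurableSet
    rw [h1] at h2
    exact h2.1 hμV
  rw [Metric.tendsto_nhds]
  intro ε hε
  -- choose the compact set
  set δ : ℝ := ε / (4 * (M + 1)) with hδ
  have hδ0 : 0 < δ := by positivity
  obtain ⟨C, hCU, hC, hμC⟩ := hU.measurableSet.exists_isCompact_lt_add (μ := μ)
    (measure_ne_top μ _) (ε := ENNReal.ofReal δ) (by simpa using hδ0)
  have hμCc : μ.real Cᶜ ≤ δ := by
    have h1 : μ Cᶜ ≤ ENNReal.ofReal δ := by
      rw [prob_compl_eq_one_sub hC.measurableSet, ← hμU]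
      exact tsub_le_iff_left.2 hμC.le
    exact ENNReal.toReal_le_of_le_ofReal hδ0.le h1
  have hKc : IsCompact (({θ₀} : Set Θ) ×ˢ C) := isCompact_singleton.prod hC
  have hKV : ({θ₀} : Set Θ) ×ˢ C ⊆ V := by
    rintro ⟨t, x⟩ ⟨h1, h2⟩
    rw [Set.mem_singleton_iff] at h1
    subst h1
    exact hCU h2
  obtain ⟨χ, hχ1, -, hχV, hχ01⟩ := exists_continuousMap_one_of_isCompact_subset_isOpen hKc hV hKV
  set H : C(Θ × A, ℝ) := ⟨fun p => χ p * G (Φ p),
    continuous_mul_off hV χ hχV (G.continuous.comp_continuousOn hΦ)⟩ with hH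
  have hcur : ∀ F : C(Θ × A, ℝ), Tendsto (fun n => avg (s n) (fun ω => F (θ n, X n ω))) l
      (𝓝 (∫ x, F (θ₀, x) ∂μ)) := by
    intro F
    have h1 : Tendsto (fun n => avg (s n) (fun ω => F.curry θ₀ (X n ω))) l
        (𝓝 (∫ x, F.curry θ₀ x ∂μ)) := hX (F.curry θ₀)
    have h2 : Tendsto (fun n => dist (F.curry (θ n)) (F.curry θ₀)) l (𝓝 0) := by
      rw [← tendsto_iff_dist_tendsto_zero]
      exact (F.curry.continuous.tendsto θ₀).comp hθ
    have h3 : Tendsto (fun n => avg (s n) (fun ω => F (θ n, X n ω))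
        - avg (s n) (fun ω => F.curry θ₀ (X n ω))) l (𝓝 0) := by
      rw [tendsto_zero_iff_abs_tendsto_zero]
      refine squeeze_zero (fun n => abs_nonneg _) (fun n => ?_) h2
      simp only [Function.comp_apply]
      rw [← avg_sub]
      refine (abs_avg_le (s n) (g := fun _ => dist (F.curry (θ n)) (F.curry θ₀)) ?_).trans
        (avg_const_le _ dist_nonneg)
      intro ω _
      have := ContinuousMap.dist_apply_le_dist (f := F.curry (θ n)) (g := F.curry θ₀) (X n ω)
      rw [Real.dist_eq] at this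
      exact this
    have h4 := h3.add h1
    simpa using h4
  have hone : Tendsto (fun n => avg (s n) (fun _ => (1 : ℝ))) l (𝓝 1) := by
    have := hX 1
    simpa using this
  have hT1 := hcur H
  have hT2 := hcur χ
  have hint1 : |∫ x, H (θ₀, x) ∂μ - ∫ x, G (Φ (θ₀, x)) ∂μ| ≤ M * δ := by
    have hi1 : Integrable (fun x => H (θ₀, x)) μ := by
      refine Integrable.of_bound (C := M) ?_ ?_
      · exact ((H.continuous.comp (by fun_prop : Continuous fun x : A => (θ₀, x))).measurable).aestronglyMeasurable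
      · refine Filter.Eventually.of_forall fun x => ?_
        rw [Real.norm_eq_abs]
        change |χ (θ₀, x) * G (Φ (θ₀, x))| ≤ M
        rw [abs_mul]
        have h5 := hχ01 (θ₀, x)
        rw [abs_of_nonneg h5.1]
        calc χ (θ₀, x) * |G (Φ (θ₀, x))| ≤ 1 * M :=
              mul_le_mul h5.2 (hM _) (abs_nonneg _) zero_le_one
          _ = M := one_mul M
    have hi2 : Integrable (fun x => G (Φ (θ₀, x))) μ :=
      Integrable.of_bound (C := M) hGm.aestronglyMeasurable
        (Filter.Eventually.of_forall fun x => by rw [Real.norm_eq_abs]; exact hM _)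
    rw [← integral_sub hi1 hi2, ← Real.norm_eq_abs]
    have h6 : ∀ x, ‖H (θ₀, x) - G (Φ (θ₀, x))‖ ≤ Cᶜ.indicator (fun _ => M) x := by
      intro x
      by_cases hx : x ∈ C
      · have h7 : χ (θ₀, x) = 1 := hχ1 (Set.mk_mem_prod rfl hx)
        have h8 : H (θ₀, x) = G (Φ (θ₀, x)) := by
          change χ (θ₀, x) * G (Φ (θ₀, x)) = _
          rw [h7, one_mul]
        rw [h8, sub_self, norm_zero]
        exact Set.indicator_nonneg (fun _ _ => hM0) x
      · rw [Set.indicator_of_mem (Set.mem_compl hx), Real.norm_eq_abs]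
        change |χ (θ₀, x) * G (Φ (θ₀, x)) - G (Φ (θ₀, x))| ≤ M
        have h5 := hχ01 (θ₀, x)
        have h9 : χ (θ₀, x) * G (Φ (θ₀, x)) - G (Φ (θ₀, x))
            = -((1 - χ (θ₀, x)) * G (Φ (θ₀, x))) := by ring
        rw [h9, abs_neg, abs_mul, abs_of_nonneg (by linarith [h5.2] : 0 ≤ 1 - χ (θ₀, x))]
        calc (1 - χ (θ₀, x)) * |G (Φ (θ₀, x))| ≤ 1 * M :=
              mul_le_mul (by linarith [h5.1]) (hM _) (abs_nonneg _) zero_le_one
          _ = M := one_mul M
    calc ‖∫ x, H (θ₀, x) - G (Φ (θ₀, x)) ∂μ‖ ≤ ∫ x, Cᶜ.indicator (fun _ => M) x ∂μ := by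
          refine norm_integral_le_of_norm_le ?_ (Filter.Eventually.of_forall h6)
          exact (integrable_const M).indicator hC.measurableSet.compl
      _ = M * μ.real Cᶜ := by
          rw [integral_indicator hC.measurableSet.compl, setIntegral_const, smul_eq_mul, mul_comm]
      _ ≤ M * δ := mul_le_mul_of_nonneg_left hμCc hM0
  have hint2 : 1 - ∫ x, χ (θ₀, x) ∂μ ≤ δ := by
    have hi1 : Integrable (fun x => χ (θ₀, x)) μ := by
      refine Integrable.of_bound (C := 1) ?_ ?_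
      · exact ((χ.continuous.comp (by fun_prop : Continuous fun x : A => (θ₀, x))).measurable).aestronglyMeasurable
      · refine Filter.Eventually.of_forall fun x => ?_
        have h5 := hχ01 (θ₀, x)
        rw [Real.norm_eq_abs, abs_of_nonneg h5.1]
        exact h5.2
    have h1 : μ.real C ≤ ∫ x, χ (θ₀, x) ∂μ := by
      have h2 : ∫ x, C.indicator (fun _ => (1 : ℝ)) x ∂μ ≤ ∫ x, χ (θ₀, x) ∂μ := by
        refine integral_mono ((integrable_const 1).indicator hC.measurableSet) hi1 ?_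
        intro x
        by_cases hx : x ∈ C
        · have h7 : χ (θ₀, x) = 1 := hχ1 (Set.mk_mem_prod rfl hx)
          simp only [Set.indicator_of_mem hx, h7, le_refl]
        · simp only [Set.indicator_of_notMem hx]
          exact (hχ01 (θ₀, x)).1
      rwa [integral_indicator hC.measurableSet, setIntegral_const, smul_eq_mul, mul_one] at h2
    have h2 : μ.real C = 1 - μ.real Cᶜ := by
      have := probReal_compl_eq_one_sub (μ := μ) hC.measurableSet
      linarith
    linarith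
  -- the error
  have hT3 : Tendsto (fun n => M * (avg (s n) (fun _ => (1 : ℝ))
      - avg (s n) (fun ω => χ (θ n, X n ω))) + 2 * M * prob (s n) (bad n)) l
      (𝓝 (M * (1 - ∫ x, χ (θ₀, x) ∂μ) + 2 * M * 0)) :=
    ((hone.sub hT2).const_mul M).add (hbad.const_mul (2 * M))
  have hMδ : M * δ ≤ ε / 4 := by
    rw [hδ]
    have h1 : M * (ε / (4 * (M + 1))) = (ε / 4) * (M / (M + 1)) := by
      field_simp
    rw [h1]
    have h2 : M / (M + 1) ≤ 1 := by
      rw [div_le_one (by linarith)]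
      linarith
    calc ε / 4 * (M / (M + 1)) ≤ ε / 4 * 1 := mul_le_mul_of_nonneg_left h2 (by linarith)
      _ = ε / 4 := mul_one _
  have hlim3 : M * (1 - ∫ x, χ (θ₀, x) ∂μ) + 2 * M * 0 ≤ ε / 4 := by
    have := mul_le_mul_of_nonneg_left hint2 hM0
    linarith
  have hev3 : ∀ᶠ n in l, M * (avg (s n) (fun _ => (1 : ℝ))
      - avg (s n) (fun ω => χ (θ n, X n ω))) + 2 * M * prob (s n) (bad n) < ε / 4 + ε / 8 :=
    hT3.eventually (gt_mem_nhds (by linarith))
  have hev1 : ∀ᶠ n in l, |avg (s n) (fun ω => H (θ n, X n ω)) - ∫ x, H (θ₀, x) ∂μ| < ε / 8 := by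
    have := (Metric.tendsto_nhds.1 hT1) (ε / 8) (by linarith)
    simpa [Real.dist_eq] using this
  filter_upwards [hev1, hev3, hY] with n h1 h3 hYn
  rw [Real.dist_eq]
  have hdiff : |avg (s n) (fun ω => G (Y n ω)) - avg (s n) (fun ω => H (θ n, X n ω))|
      ≤ M * (avg (s n) (fun _ => (1 : ℝ)) - avg (s n) (fun ω => χ (θ n, X n ω)))
        + 2 * M * prob (s n) (bad n) := by
    rw [← avg_sub, ← avg_sub]
    unfold prob
    rw [← avg_const_mul, ← avg_const_mul, ← avg_add]
    refine abs_avg_le (s n) ?_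
    intro ω hω
    have h5 := hχ01 (θ n, X n ω)
    change |G (Y n ω) - χ (θ n, X n ω) * G (Φ (θ n, X n ω))| ≤ _
    by_cases hb : bad n ω
    · rw [if_pos hb]
      have e1 : |G (Y n ω) - χ (θ n, X n ω) * G (Φ (θ n, X n ω))| ≤ M + 1 * M := by
        refine (abs_sub _ _).trans (add_le_add (hM _) ?_)
        rw [abs_mul, abs_of_nonneg h5.1]
        exact mul_le_mul h5.2 (hM _) (abs_nonneg _) zero_le_one
      have e2 : 0 ≤ M * (1 - χ (θ n, X n ω)) := mul_nonneg hM0 (by linarith [h5.2])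
      linarith
    · rw [if_neg hb, mul_zero, add_zero]
      by_cases hz : χ (θ n, X n ω) = 0
      · rw [hz, zero_mul, sub_zero, sub_zero, mul_one]
        exact hM _
      · have hin : (θ n, X n ω) ∈ V := hχV (subset_tsupport _ hz)
        rw [← hYn ω hω hb hin]
        have h9 : G (Y n ω) - χ (θ n, X n ω) * G (Y n ω)
            = (1 - χ (θ n, X n ω)) * G (Y n ω) := by ring
        rw [h9, abs_mul, abs_of_nonneg (by linarith [h5.2] : 0 ≤ 1 - χ (θ n, X n ω)), mul_comm M]
        exact mul_le_mul_of_nonneg_left (hM _) (by linarith [h5.2])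
  have htri : |avg (s n) (fun ω => G (Y n ω)) - ∫ x, G (Φ (θ₀, x)) ∂μ|
      ≤ |avg (s n) (fun ω => G (Y n ω)) - avg (s n) (fun ω => H (θ n, X n ω))|
        + |avg (s n) (fun ω => H (θ n, X n ω)) - ∫ x, H (θ₀, x) ∂μ|
        + |∫ x, H (θ₀, x) ∂μ - ∫ x, G (Φ (θ₀, x)) ∂μ| := by
    have e1 := abs_add_three
      (avg (s n) (fun ω => G (Y n ω)) - avg (s n) (fun ω => H (θ n, X n ω)))
      (avg (s n) (fun ω => H (θ n, X n ω)) - ∫ x, H (θ₀, x) ∂μ)
      (∫ x, H (θ₀, x) ∂μ - ∫ x, G (Φ (θ₀, x)) ∂μ)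
    have e2 : (avg (s n) (fun ω => G (Y n ω)) - avg (s n) (fun ω => H (θ n, X n ω)))
      + (avg (s n) (fun ω => H (θ n, X n ω)) - ∫ x, H (θ₀, x) ∂μ)
      + (∫ x, H (θ₀, x) ∂μ - ∫ x, G (Φ (θ₀, x)) ∂μ)
        = avg (s n) (fun ω => G (Y n ω)) - ∫ x, G (Φ (θ₀, x)) ∂μ := by ring
    rw [e2] at e1
    exact e1
  linarith

end transfer

end Vale.Agent.P156.H167
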