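import Vale.Agent.P156.H167.SpecX
import Vale.Agent.P156.H917.EdgeLaw

/-! P156, block F: `SpecX` for every degree. -/

open Matrix MeasureTheory Filter Topology

namespace Vale.Agent.P156.H167

open Vale.Agent.P156

theorem hLaw {q : ℕ} (hO : SpecOInv (q + 1)) (hZW : SpecZW (q + 1)) : HLaw q := by
  intro 𝒰 E E₀ hG K hK H _ hH
  have hq : 0 < q := by have := hG.three; omega
  have hE4 : E₀ ^ 2 < 4 * q := by
    have := A.sq_lt_of_bulk (d := q + 1) (by omega) hG.bulk
    push_cast at this
    linarith
  have hw : ‖H917.wE q E₀‖ = 1 := H917.norm_wE hq hE4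
  obtain ⟨h1, h2⟩ := H917.law_H hG hZW hO (by omega) hH
  exact ⟨h1, h2, H917.DlU K q (H917.wE q E₀) hw, H917.edge_limit hG hZW hH hw⟩

/-- **SpecX**: full unitary invariance of the limit laws of the scattering matrix of the leads,
from the orthogonal invariance (block E) and the comparison of `Z_K` with `W_K` (block B). -/
theorem specX {d : ℕ} (hO : SpecOInv d) (hZW : SpecZW d) : SpecX d := by
  rcases Nat.eq_zero_or_pos d with hd | hd
  · intro 𝒰 E E₀ hG
    have := hG.three
    omega
  · obtain ⟨q, rfl⟩ : ∃ q, d = q + 1 := ⟨d - 1, by omega⟩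
    exact specX_of (hLaw hO hZW) hO hZW

end Vale.Agent.P156.H167
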