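import Mathlib

/-! P156, E2: a set of real orthogonal matrices closed under products which contains the
permutation matrices and the simultaneous rotations of two stars is the whole orthogonal group. -/

set_option linter.unusedSectionVars false
set_option linter.unusedSimpArgs false

open Matrix Finset

namespace Vale.Agent.P156.E2

variable {ι : Type*} [Fintype ι] [DecidableEq ι]

/-- Rotation in the plane of the coordinates `i` and `j`. -/
noncomputable def planeRot (i j : ι) (c s : ℝ) : Matrix ι ι ℝ :=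
  Matrix.of fun a b =>
    if a = i then (if b = i then c else if b = j then -s else 0)
    else if a = j then (if b = i then s else if b = j then c else 0)
    else if a = b then 1 else 0

theorem planeRot_mulVec {i j : ι} (hij : i ≠ j) (c s : ℝ) (x : ι → ℝ) :
    planeRot i j c s *ᵥ x = fun a => if a = i then c * x i - s * x j
      else if a = j then s * x i + c * x j else x a := by
  funext a
  simp only [Matrix.mulVec, dotProduct, planeRot, Matrix.of_apply]
  by_cases hai : a = i
  · subst hai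
    have h1 : ∀ b, (if b = a then c else if b = j then -s else 0) * x b
        = (if b = a then c * x b else 0) + (if b = j then -s * x b else 0) := by
      intro b
      by_cases h : b = a
      · subst h
        simp [hij]
      · simp [h]
    simp only [if_true, h1, Finset.sum_add_distrib, Finset.sum_ite_eq', Finset.mem_univ]
    ring
  · by_cases haj : a = j
    · subst haj
      have h1 : ∀ b, (if b = i then s else if b = a then c else 0) * x b
          = (if b = i then s * x b else 0) + (if b = a then c * x b else 0) := by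
        intro b
        by_cases h : b = i
        · subst h
          simp [hij]
        · simp [h]
      simp only [if_neg hai, if_true, h1, Finset.sum_add_distrib, Finset.sum_ite_eq',
        Finset.mem_univ]
    · simp [hai, haj]

theorem ext_mulVec {A B : Matrix ι ι ℝ} (h : ∀ x : ι → ℝ, A *ᵥ x = B *ᵥ x) : A = B := by
  ext a b
  have := congrFun (h (Pi.single b 1)) a
  simpa using this

theorem planeRot_transpose {i j : ι} (hij : i ≠ j) (c s : ℝ) :
    (planeRot i j c s)ᵀ = planeRot i j c (-s) := by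
  ext a b
  simp only [planeRot, Matrix.transpose_apply, Matrix.of_apply]
  by_cases h1 : a = i <;> by_cases h2 : a = j <;> by_cases h3 : b = i <;> by_cases h4 : b = j <;>
    simp_all [eq_comm]

theorem planeRot_mul {i j : ι} (hij : i ≠ j) (c s c' s' : ℝ) :
    planeRot i j c s * planeRot i j c' s' = planeRot i j (c * c' - s * s') (s * c' + c * s') := by
  apply ext_mulVec
  intro x
  rw [← Matrix.mulVec_mulVec, planeRot_mulVec hij, planeRot_mulVec hij, planeRot_mulVec hij]
  funext a
  by_cases hai : a = i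
  · simp [hai, hij.symm]
    ring
  · by_cases haj : a = j
    · simp [haj, hij.symm]
      ring
    · simp [hai, haj]

theorem planeRot_one_zero {i j : ι} (hij : i ≠ j) : planeRot i j 1 0 = 1 := by
  apply ext_mulVec
  intro x
  rw [planeRot_mulVec hij]
  funext a
  by_cases hai : a = i
  · simp [hai]
  · by_cases haj : a = j
    · simp [haj, hij.symm]
    · simp [hai, haj]

theorem planeRot_orth {i j : ι} (hij : i ≠ j) {c s : ℝ} (h : c ^ 2 + s ^ 2 = 1) :
    (planeRot i j c s)ᵀ * planeRot i j c s = 1 := by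
  rw [planeRot_transpose hij, planeRot_mul hij, ← planeRot_one_zero hij]
  congr 1
  · rw [← h]; ring
  · ring

/-- The reflection in the hyperplane orthogonal to `u`. -/
noncomputable def refl (u : ι → ℝ) : Matrix ι ι ℝ :=
  1 - (2 / (u ⬝ᵥ u)) • vecMulVec u u

theorem refl_mulVec (u x : ι → ℝ) : refl u *ᵥ x = x - (2 * (u ⬝ᵥ x) / (u ⬝ᵥ u)) • u := by
  rw [refl, Matrix.sub_mulVec, Matrix.one_mulVec, Matrix.smul_mulVec, Matrix.vecMulVec_mulVec]
  congr 1
  ext a
  simp
  ring

theorem refl_transpose (u : ι → ℝ) : (refl u)ᵀ = refl u := by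
  ext a b
  simp [refl, Matrix.one_apply, vecMulVec_apply, mul_comm (u a), eq_comm]

theorem refl_zero : refl (0 : ι → ℝ) = 1 := by
  simp [refl]

theorem dot_self_pos_iff (u : ι → ℝ) : u ⬝ᵥ u = 0 ↔ u = 0 := dotProduct_self_eq_zero

theorem refl_smul (u : ι → ℝ) {r : ℝ} (hr : r ≠ 0) : refl (r • u) = refl u := by
  apply ext_mulVec
  intro x
  rw [refl_mulVec, refl_mulVec]
  congr 1
  by_cases hu : u ⬝ᵥ u = 0
  · rw [dotProduct_self_eq_zero] at hu
    simp [hu]
  · ext a
    simp only [smul_dotProduct, dotProduct_smul, Pi.smul_apply, smul_eq_mul]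
    field_simp

theorem refl_mul_self (u : ι → ℝ) : refl u * refl u = 1 := by
  apply ext_mulVec
  intro x
  rw [← Matrix.mulVec_mulVec, refl_mulVec, refl_mulVec, Matrix.one_mulVec]
  by_cases hu : u ⬝ᵥ u = 0
  · rw [dotProduct_self_eq_zero] at hu
    simp [hu]
  · ext a
    simp only [dotProduct_sub, dotProduct_smul, Pi.sub_apply, Pi.smul_apply, smul_eq_mul]
    field_simp
    ring

theorem dot_mulVec_of_orth {g : Matrix ι ι ℝ} (hg : gᵀ * g = 1) (u x : ι → ℝ) :
    (g *ᵥ u) ⬝ᵥ (g *ᵥ x) = u ⬝ᵥ x := by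
  rw [Matrix.dotProduct_mulVec, Matrix.vecMul_mulVec, ← Matrix.dotProduct_mulVec, hg,
    Matrix.one_mulVec]

theorem refl_conj {g : Matrix ι ι ℝ} (hg : gᵀ * g = 1) (u : ι → ℝ) :
    gᵀ * refl (g *ᵥ u) * g = refl u := by
  apply ext_mulVec
  intro x
  rw [← Matrix.mulVec_mulVec, ← Matrix.mulVec_mulVec, refl_mulVec, refl_mulVec,
    Matrix.mulVec_sub, Matrix.mulVec_smul, Matrix.mulVec_mulVec, Matrix.mulVec_mulVec, hg,
    Matrix.one_mulVec, Matrix.one_mulVec, dot_mulVec_of_orth hg, dot_mulVec_of_orth hg]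

/-- Reflections generate the orthogonal group. -/
theorem orth_of_refl {P : Matrix ι ι ℝ → Prop} (h1 : P 1)
    (hmul : ∀ A B, P A → P B → P (A * B)) (hrefl : ∀ u : ι → ℝ, P (refl u))
    (O : Matrix ι ι ℝ) (hO : Oᵀ * O = 1) : P O := by
  have key : ∀ s : Finset ι, ∃ g h : Matrix ι ι ℝ, P h ∧ h * g = 1 ∧ gᵀ * g = 1 ∧
      ∀ a ∈ s, (g * O) *ᵥ Pi.single a 1 = Pi.single a 1 := by
    intro s
    induction s using Finset.induction_on with
    | empty => exact ⟨1, 1, h1, by simp, by simp, by simp⟩
    | insert a s ha ih =>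
      obtain ⟨g, h, hPh, hhg, hgg, hfix⟩ := ih
      set v : ι → ℝ := (g * O) *ᵥ Pi.single a 1 with hv
      set u : ι → ℝ := v - Pi.single a 1 with hu
      have hgO : (g * O)ᵀ * (g * O) = 1 := by
        rw [Matrix.transpose_mul, Matrix.mul_assoc, ← Matrix.mul_assoc gᵀ, hgg, Matrix.one_mul, hO]
      have hvv : v ⬝ᵥ v = 1 := by
        rw [hv, dot_mulVec_of_orth hgO]
        simp
      have hvb : ∀ b ∈ s, u ⬝ᵥ (Pi.single b 1 : ι → ℝ) = 0 := by
        intro b hb
        have hab : a ≠ b := fun h => ha (h ▸ hb)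
        have e1 : v ⬝ᵥ (Pi.single b 1 : ι → ℝ) = 0 := by
          rw [← hfix b hb, hv, dot_mulVec_of_orth hgO]
          simp [Pi.single_apply, hab, hab.symm]
        rw [hu, sub_dotProduct, e1]
        simp [Pi.single_apply, hab, hab.symm]
      refine ⟨refl u * g, h * refl u, hmul _ _ hPh (hrefl u), ?_, ?_, ?_⟩
      · calc h * refl u * (refl u * g) = h * (refl u * refl u) * g := by
              simp only [Matrix.mul_assoc]
          _ = 1 := by rw [refl_mul_self, Matrix.mul_one, hhg]
      · rw [Matrix.transpose_mul, refl_transpose, Matrix.mul_assoc, ← Matrix.mul_assoc (refl u),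
          refl_mul_self, Matrix.one_mul, hgg]
      · intro b hb
        rw [Finset.mem_insert] at hb
        rw [Matrix.mul_assoc, ← Matrix.mulVec_mulVec]
        rcases hb with rfl | hb
        · rw [← hv, refl_mulVec]
          by_cases h0 : u ⬝ᵥ u = 0
          · have : u = 0 := dotProduct_self_eq_zero.1 h0
            rw [this]
            have h2 : v = Pi.single b 1 := by
              rw [← sub_eq_zero]
              exact this
            simp [h2]
          · have e2 : u ⬝ᵥ u = 2 * (u ⬝ᵥ v) := by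
              have e3 : (Pi.single b 1 : ι → ℝ) ⬝ᵥ (Pi.single b 1 : ι → ℝ) = 1 := by simp
              have e4 : (Pi.single b 1 : ι → ℝ) ⬝ᵥ v = v ⬝ᵥ (Pi.single b 1 : ι → ℝ) :=
                dotProduct_comm _ _
              rw [hu]
              simp only [sub_dotProduct, dotProduct_sub]
              rw [hvv, e3, e4]
              ring
            rw [← e2, div_self h0, one_smul, hu]
            abel
        · rw [hfix b hb, refl_mulVec, hvb b hb]
          simp
  obtain ⟨g, h, hPh, hhg, hgg, hfix⟩ := key Finset.univ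
  have hgO : g * O = 1 := by
    apply ext_mulVec
    intro x
    have hx : x = ∑ a, x a • (Pi.single a 1 : ι → ℝ) := by
      ext b
      simp [Finset.sum_apply, Pi.single_apply]
    rw [Matrix.one_mulVec]
    conv_lhs => rw [hx]
    rw [Matrix.mulVec_sum]
    conv_rhs => rw [hx]
    refine Finset.sum_congr rfl fun a _ => ?_
    rw [Matrix.mulVec_smul, hfix a (Finset.mem_univ a)]
  have : O = h := by
    calc O = h * g * O := by rw [hhg, Matrix.one_mul]
      _ = h := by rw [Matrix.mul_assoc, hgO, Matrix.mul_one]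
  rw [this]
  exact hPh

/-- Plane rotations and coordinate reflections generate the orthogonal group. -/
theorem orth_of_planeRot {P : Matrix ι ι ℝ → Prop} (h1 : P 1)
    (hmul : ∀ A B, P A → P B → P (A * B))
    (hrot : ∀ i j : ι, i ≠ j → ∀ c s : ℝ, c ^ 2 + s ^ 2 = 1 → P (planeRot i j c s))
    (hcoord : ∀ i : ι, P (refl (Pi.single i 1)))
    (O : Matrix ι ι ℝ) (hO : Oᵀ * O = 1) : P O := by
  refine orth_of_refl h1 hmul ?_ O hO
  intro u
  by_cases hne : Nonempty ι
  swap
  · have : refl u = 1 := by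
      ext a
      exact (hne ⟨a⟩).elim
    rw [this]
    exact h1
  obtain ⟨i⟩ := hne
  have key : ∀ s : Finset ι, i ∉ s → ∃ g : Matrix ι ι ℝ, P g ∧ P gᵀ ∧ gᵀ * g = 1 ∧
      ∀ a ∈ s, (g *ᵥ u) a = 0 := by
    intro s
    induction s using Finset.induction_on with
    | empty => exact fun _ => ⟨1, h1, by simpa using h1, by simp, by simp⟩
    | insert a s ha ih =>
      intro his
      rw [Finset.mem_insert, not_or] at his
      obtain ⟨g, hPg, hPgt, hgg, hz⟩ := ih his.2
      set w := g *ᵥ u with hw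
      set r := Real.sqrt (w i ^ 2 + w a ^ 2) with hr
      by_cases hr0 : r = 0
      · refine ⟨g, hPg, hPgt, hgg, ?_⟩
        intro b hb
        rw [Finset.mem_insert] at hb
        rcases hb with rfl | hb
        · have h2 : w i ^ 2 + w b ^ 2 = 0 := by
            rw [hr, Real.sqrt_eq_zero (by positivity)] at hr0
            exact hr0
          have h3 : w b ^ 2 = 0 := by nlinarith [sq_nonneg (w i), sq_nonneg (w b)]
          exact pow_eq_zero_iff (two_ne_zero) |>.1 h3
        · exact hz b hb
      · have hrr : r ^ 2 = w i ^ 2 + w a ^ 2 := by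
          rw [hr, Real.sq_sqrt (by positivity)]
        have hcs : (w i / r) ^ 2 + (-(w a) / r) ^ 2 = 1 := by
          field_simp
          rw [hrr]
        have hia : i ≠ a := his.1
        refine ⟨planeRot i a (w i / r) (-(w a) / r) * g, hmul _ _ (hrot i a hia _ _ hcs) hPg, ?_,
          ?_, ?_⟩
        · rw [Matrix.transpose_mul]
          refine hmul _ _ hPgt ?_
          rw [planeRot_transpose hia]
          exact hrot i a hia _ _ (by rw [neg_sq]; exact hcs)
        · rw [Matrix.transpose_mul, Matrix.mul_assoc, ← Matrix.mul_assoc _ (planeRot _ _ _ _) g,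
            planeRot_orth hia hcs, Matrix.one_mul, hgg]
        · intro b hb
          rw [← Matrix.mulVec_mulVec, ← hw, planeRot_mulVec hia]
          rw [Finset.mem_insert] at hb
          rcases hb with rfl | hb
          · simp only [if_neg hia.symm, if_true]
            field_simp
            ring
          · have hbi : b ≠ i := fun h => his.2 (h ▸ hb)
            have hba : b ≠ a := fun h => ha (h ▸ hb)
            simp only [if_neg hbi, if_neg hba]
            exact hz b hb
  obtain ⟨g, hPg, hPgt, hgg, hz⟩ := key (Finset.univ.erase i) (Finset.notMem_erase i _)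
  have hgu : g *ᵥ u = (g *ᵥ u) i • (Pi.single i 1 : ι → ℝ) := by
    ext b
    by_cases hb : b = i
    · subst hb
      simp
    · simp [Pi.single_apply, hb, hz b (Finset.mem_erase.2 ⟨hb, Finset.mem_univ b⟩)]
  rw [← refl_conj hgg u]
  refine hmul _ _ (hmul _ _ hPgt ?_) hPg
  by_cases h0 : (g *ᵥ u) i = 0
  · rw [hgu, h0, zero_smul, refl_zero]
    exact h1
  · rw [hgu, refl_smul _ h0]
    exact hcoord i

/-! ### Permutations -/

theorem perm_mulVec (σ : Equiv.Perm ι) (x : ι → ℝ) :
    (Equiv.Perm.permMatrix ℝ σ) *ᵥ x = x ∘ σ := by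
  exact Matrix.permMatrix_mulVec σ

theorem exists_perm_pair {i j i' j' : ι} (hij : i ≠ j) (hij' : i' ≠ j') :
    ∃ σ : Equiv.Perm ι, σ i' = i ∧ σ j' = j := by
  set k := Equiv.swap i' i j' with hk
  have hik : i ≠ k := by
    intro h
    have h2 : Equiv.swap i' i i' = Equiv.swap i' i j' := by
      rw [Equiv.swap_apply_left, ← hk]
      exact h
    exact hij' (Equiv.injective _ h2)
  refine ⟨(Equiv.swap i' i).trans (Equiv.swap k j), ?_, ?_⟩
  · rw [Equiv.trans_apply, Equiv.swap_apply_left]
    exact Equiv.swap_apply_of_ne_of_ne hik hij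
  · rw [Equiv.trans_apply, ← hk, Equiv.swap_apply_left]

theorem perm_conj_planeRot {i j : ι} (hij : i ≠ j) (σ : Equiv.Perm ι) (c s : ℝ) :
    Equiv.Perm.permMatrix ℝ σ * planeRot i j c s * Equiv.Perm.permMatrix ℝ σ.symm
      = planeRot (σ.symm i) (σ.symm j) c s := by
  have hij' : σ.symm i ≠ σ.symm j := fun h => hij (σ.symm.injective h)
  apply ext_mulVec
  intro x
  rw [← Matrix.mulVec_mulVec, ← Matrix.mulVec_mulVec, perm_mulVec, perm_mulVec,
    planeRot_mulVec hij, planeRot_mulVec hij']
  funext a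
  simp only [Function.comp_apply]
  have e1 : (σ a = i) = (a = σ.symm i) := by
    rw [Equiv.eq_symm_apply]
  have e2 : (σ a = j) = (a = σ.symm j) := by
    rw [Equiv.eq_symm_apply]
  simp only [e1, e2, Equiv.symm_apply_apply]

theorem swap_mul_planeRot {i j : ι} (hij : i ≠ j) :
    Equiv.Perm.permMatrix ℝ (Equiv.swap i j) * planeRot i j 0 1 = refl (Pi.single j 1) := by
  apply ext_mulVec
  intro x
  rw [← Matrix.mulVec_mulVec, perm_mulVec, planeRot_mulVec hij, refl_mulVec]
  funext a
  by_cases hai : a = i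
  · subst hai
    simp [hij, hij.symm]
  · by_cases haj : a = j
    · subst haj
      simp
      ring
    · rw [Function.comp_apply, Equiv.swap_apply_of_ne_of_ne hai haj]
      simp [hai, haj]

/-- One plane of rotations and all permutations generate the orthogonal group. -/
theorem orth_of_onePlane {P : Matrix ι ι ℝ → Prop}
    (hmul : ∀ A B, P A → P B → P (A * B))
    (hperm : ∀ σ : Equiv.Perm ι, P (Equiv.Perm.permMatrix ℝ σ))
    {i₀ j₀ : ι} (h0 : i₀ ≠ j₀)
    (hrot : ∀ c s : ℝ, c ^ 2 + s ^ 2 = 1 → P (planeRot i₀ j₀ c s))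
    (O : Matrix ι ι ℝ) (hO : Oᵀ * O = 1) : P O := by
  have h1 : P 1 := by
    have := hperm 1
    simpa using this
  have hrot' : ∀ i j : ι, i ≠ j → ∀ c s : ℝ, c ^ 2 + s ^ 2 = 1 → P (planeRot i j c s) := by
    intro i j hij c s hcs
    obtain ⟨σ, h2, h3⟩ := exists_perm_pair h0 hij
    have h4 := perm_conj_planeRot h0 σ c s
    have h5 : σ.symm i₀ = i := by rw [← h2, Equiv.symm_apply_apply]
    have h6 : σ.symm j₀ = j := by rw [← h3, Equiv.symm_apply_apply]
    rw [h5, h6] at h4
    rw [← h4]
    exact hmul _ _ (hmul _ _ (hperm _) (hrot c s hcs)) (hperm _)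
  refine orth_of_planeRot h1 hmul hrot' ?_ O hO
  intro j
  obtain ⟨i, hij⟩ : ∃ i : ι, i ≠ j := by
    by_cases h : i₀ = j
    · exact ⟨j₀, fun h' => h0 (h.trans h'.symm)⟩
    · exact ⟨i₀, h⟩
  rw [← swap_mul_planeRot hij]
  exact hmul _ _ (hperm _) (hrot' i j hij 0 1 (by norm_num))

/-! ### Simultaneous rotation of two stars -/

variable {κ δ : Type*} [Fintype κ] [DecidableEq κ] [Fintype δ] [DecidableEq δ]

/-- Rotation of the stars `j₀` and `j₁`, simultaneously in all the leads `δ`. -/
noncomputable def simRot (j₀ j₁ : κ) (c s : ℝ) : Matrix (κ × δ) (κ × δ) ℝ :=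
  Matrix.of fun p q => if p.2 = q.2 then planeRot j₀ j₁ c s p.1 q.1 else 0

theorem simRot_mulVec {j₀ j₁ : κ} (h : j₀ ≠ j₁) (c s : ℝ) (x : κ × δ → ℝ) :
    simRot j₀ j₁ c s *ᵥ x = fun p => if p.1 = j₀ then c * x (j₀, p.2) - s * x (j₁, p.2)
      else if p.1 = j₁ then s * x (j₀, p.2) + c * x (j₁, p.2) else x p := by
  funext p
  obtain ⟨k, l⟩ := p
  have e1 : (simRot j₀ j₁ c s *ᵥ x) (k, l) = (planeRot j₀ j₁ c s *ᵥ (fun k' => x (k', l))) k := by
    simp only [Matrix.mulVec, dotProduct, simRot, Matrix.of_apply]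
    rw [Fintype.sum_prod_type]
    refine Finset.sum_congr rfl fun k' _ => ?_
    simp [ite_mul]
  rw [e1, planeRot_mulVec h]

theorem simRot_swap {j₀ j₁ : κ} (h : j₀ ≠ j₁) (l : δ) (c s : ℝ) (hcs : c ^ 2 + s ^ 2 = 1) :
    simRot j₀ j₁ c s * Equiv.Perm.permMatrix ℝ (Equiv.swap (j₀, l) (j₁, l)) *
      simRot j₀ j₁ c (-s) * Equiv.Perm.permMatrix ℝ (Equiv.swap (j₀, l) (j₁, l))
      = planeRot (j₀, l) (j₁, l) (c ^ 2 - s ^ 2) (2 * c * s) := by
  have hne : ((j₀, l) : κ × δ) ≠ (j₁, l) := fun h' => h (by simpa using congrArg Prod.fst h')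
  apply ext_mulVec
  intro x
  rw [← Matrix.mulVec_mulVec, ← Matrix.mulVec_mulVec, ← Matrix.mulVec_mulVec, perm_mulVec,
    perm_mulVec, simRot_mulVec h, simRot_mulVec h, planeRot_mulVec hne]
  funext p
  obtain ⟨k, l'⟩ := p
  have hs0 : Equiv.swap ((j₀, l) : κ × δ) (j₁, l) (j₀, l) = (j₁, l) := Equiv.swap_apply_left _ _
  have hs1 : Equiv.swap ((j₀, l) : κ × δ) (j₁, l) (j₁, l) = (j₀, l) := Equiv.swap_apply_right _ _
  by_cases hl : l' = l
  · subst hl
    by_cases hk0 : k = j₀
    · subst hk0
      simp only [Function.comp_apply, if_true, hs0, hs1, if_neg h.symm, if_neg h]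
      ring
    · by_cases hk1 : k = j₁
      · subst hk1
        simp only [Function.comp_apply, if_true, hs0, hs1, if_neg h.symm, if_neg h, if_neg hne.symm]
        ring
      · have hs : Equiv.swap ((j₀, l') : κ × δ) (j₁, l') (k, l') = (k, l') :=
          Equiv.swap_apply_of_ne_of_ne (by simpa using hk0) (by simpa using hk1)
        simp [hk0, hk1, hs]
  · have hs2 : ∀ k', Equiv.swap ((j₀, l) : κ × δ) (j₁, l) (k', l') = (k', l') := fun k' =>
      Equiv.swap_apply_of_ne_of_ne (by simp [hl]) (by simp [hl])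
    by_cases hk0 : k = j₀
    · subst hk0
      simp only [Function.comp_apply, if_true, hs2, if_neg h.symm, if_neg h]
      have e1 : ((k, l') : κ × δ) ≠ (k, l) := by simp [hl]
      have e2 : ((k, l') : κ × δ) ≠ (j₁, l) := by simp [hl]
      simp only [if_neg e1, if_neg e2]
      linear_combination (x (k, l')) * hcs
    · by_cases hk1 : k = j₁
      · subst hk1
        simp only [Function.comp_apply, if_true, hs2, if_neg h.symm, if_neg h]
        have e1 : ((k, l') : κ × δ) ≠ (j₀, l) := by simp [hl]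
        have e2 : ((k, l') : κ × δ) ≠ (k, l) := by simp [hl]
        simp only [if_neg e1, if_neg e2]
        linear_combination (x (k, l')) * hcs
      · simp [hk0, hk1, hl, hs2]

theorem exists_half {c s : ℝ} (h : c ^ 2 + s ^ 2 = 1) :
    ∃ a b : ℝ, a ^ 2 + b ^ 2 = 1 ∧ a ^ 2 - b ^ 2 = c ∧ 2 * a * b = s := by
  by_cases hc : c = -1
  · refine ⟨0, 1, by norm_num, by rw [hc]; norm_num, ?_⟩
    have : s ^ 2 = 0 := by rw [hc] at h; linarith
    rw [pow_eq_zero_iff (two_ne_zero)] at this
    rw [this]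
    ring
  · have h1 : -1 < c := by
      rcases lt_or_ge (-1) c with h' | h'
      · exact h'
      · exfalso
        apply hc
        nlinarith [sq_nonneg s]
    set a := Real.sqrt ((1 + c) / 2) with ha
    have ha2 : a ^ 2 = (1 + c) / 2 := by
      rw [ha, Real.sq_sqrt (by linarith)]
    have ha0 : a ≠ 0 := by
      intro h0
      rw [h0] at ha2
      norm_num at ha2
      linarith
    have hb2 : (s / (2 * a)) ^ 2 = (1 - c) / 2 := by
      rw [div_pow, mul_pow, ha2, div_eq_iff (by linarith)]
      nlinarith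
    refine ⟨a, s / (2 * a), ?_, ?_, ?_⟩
    · rw [ha2, hb2]; ring
    · rw [ha2, hb2]; ring
    · field_simp

/-- **E2**, group form. -/
theorem orth_of_simRot {P : Matrix (κ × δ) (κ × δ) ℝ → Prop}
    (hmul : ∀ A B, P A → P B → P (A * B))
    (hperm : ∀ σ : Equiv.Perm (κ × δ), P (Equiv.Perm.permMatrix ℝ σ))
    {j₀ j₁ : κ} (h : j₀ ≠ j₁) (l : δ)
    (hrot : ∀ c s : ℝ, c ^ 2 + s ^ 2 = 1 → P (simRot j₀ j₁ c s))
    (O : Matrix (κ × δ) (κ × δ) ℝ) (hO : Oᵀ * O = 1) : P O := by
  have hne : ((j₀, l) : κ × δ) ≠ (j₁, l) := fun h' => h (by simpa using congrArg Prod.fst h')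
  refine orth_of_onePlane hmul hperm hne ?_ O hO
  intro c s hcs
  obtain ⟨a, b, hab, rfl, rfl⟩ := exists_half hcs
  rw [← simRot_swap h l a b hab]
  exact hmul _ _ (hmul _ _ (hmul _ _ (hrot a b hab) (hperm _))
    (hrot a (-b) (by rw [neg_sq]; exact hab))) (hperm _)

end Vale.Agent.P156.E2
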