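import Vale.Agent.P156.H574.Cayley

/-! P156, block F: completion of real isometries to orthogonal matrices, equivariance of the Cayley
transform. -/

open Matrix

namespace Vale.Agent.P156.H167

open Vale.Agent.P156 Vale.Agent.P156.A

set_option linter.unusedSectionVars false

variable {ι κ : Type} [Fintype ι] [DecidableEq ι] [Fintype κ] [DecidableEq κ]

/-- completion of a matrix with orthonormal columns. -/
theorem exists_orth_extension (P : Matrix ι κ ℝ) (hP : Pᵀ * P = 1) {N : ℕ}
    (hN : Fintype.card ι = N) (g : κ → Fin N) (hg : Function.Injective g) :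
    ∃ Q : Matrix ι (Fin N) ℝ, Qᵀ * Q = 1 ∧ Q * Qᵀ = 1 ∧ Q.submatrix id g = P := by
  classical
  let v : Fin N → EuclideanSpace ℝ ι := fun i =>
    if h : ∃ k, g k = i then WithLp.toLp 2 (fun a => P a h.choose) else 0
  have hv : ∀ k, v (g k) = WithLp.toLp 2 (fun a => P a k) := by
    intro k
    have h : ∃ k', g k' = g k := ⟨k, rfl⟩
    have hk : h.choose = k := hg h.choose_spec
    simp only [v]
    rw [dif_pos h, hk]
  have hin : ∀ k k' : κ, inner ℝ (v (g k)) (v (g k')) = if k = k' then (1 : ℝ) else 0 := by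
    intro k k'
    rw [hv, hv]
    have h1 := congrFun (congrFun hP k) k'
    rw [Matrix.mul_apply, Matrix.one_apply] at h1
    rw [← h1]
    simp only [PiLp.inner_apply, transpose_apply]
    refine Finset.sum_congr rfl fun a _ => ?_
    simp [mul_comm]
  have hvo : Orthonormal ℝ ((Set.range g).domRestrict v) := by
    rw [orthonormal_iff_ite]
    intro x y
    obtain ⟨k, hk⟩ := x.2
    obtain ⟨k', hk'⟩ := y.2
    have e1 : (Set.range g).domRestrict v x = v (g k) := by rw [hk]; rfl
    have e2 : (Set.range g).domRestrict v y = v (g k') := by rw [hk']; rfl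
    rw [e1, e2, hin]
    have e3 : (x = y) ↔ k = k' := by
      rw [← hg.eq_iff, hk, hk', Subtype.ext_iff]
    simp only [e3]
  obtain ⟨b, hb⟩ := hvo.exists_orthonormalBasis_extension_of_card_eq (by
    rw [finrank_euclideanSpace, hN, Fintype.card_fin])
  have hQ1 : (Matrix.of fun (a : ι) (j : Fin N) => b j a)ᵀ *
      (Matrix.of fun (a : ι) (j : Fin N) => b j a) = 1 := by
    ext i j
    rw [Matrix.mul_apply, Matrix.one_apply]
    have h1 := orthonormal_iff_ite.mp b.orthonormal i j
    rw [← h1, PiLp.inner_apply]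
    refine Finset.sum_congr rfl fun a _ => ?_
    simp [mul_comm]
  refine ⟨Matrix.of fun a j => b j a, hQ1, ?_, ?_⟩
  · exact (mul_eq_one_comm_of_card_eq _ _ _ (by rw [Fintype.card_fin, hN])).mp hQ1
  · ext a k
    rw [submatrix_apply, of_apply, hb (g k) ⟨k, rfl⟩, hv]
    rfl

theorem toC_transpose (P : Matrix ι κ ℝ) : (toC P)ᵀ = toC Pᵀ := rfl

theorem toC_conjTranspose (P : Matrix ι κ ℝ) : (toC P)ᴴ = toC Pᵀ := by
  ext i j
  rw [conjTranspose_apply, toC_apply, toC_apply, transpose_apply]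
  simp

theorem toC_mul {ν : Type} [Fintype ν] [DecidableEq ν] (P : Matrix ι κ ℝ) (Q : Matrix κ ν ℝ) :
    toC (P * Q) = toC P * toC Q := by
  ext i j
  simp [toC, Matrix.mul_apply]

theorem toC_one : toC (1 : Matrix ι ι ℝ) = 1 := by
  ext i j
  rw [toC_apply, Matrix.one_apply, Matrix.one_apply]
  split_ifs <;> simp

/-- real congruences preserve `RealSymm`. -/
theorem RealSymm.congr {R : Matrix ι ι ℂ} (hR : RealSymm R) (P : Matrix ι κ ℝ) :
    RealSymm ((toC P)ᵀ * R * toC P) := by
  refine ⟨?_, ?_⟩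
  · have h1 : ((toC P)ᵀ)ᴴ = toC P := by
      rw [toC_transpose, toC_conjTranspose, transpose_transpose]
    rw [conjTranspose_mul, conjTranspose_mul, hR.1, h1, toC_conjTranspose, toC_transpose,
      Matrix.mul_assoc]
  · rw [transpose_mul, transpose_mul, hR.2, transpose_transpose, Matrix.mul_assoc]

theorem RealSymm.submatrix {R : Matrix ι ι ℂ} (hR : RealSymm R) (f : κ → ι) :
    RealSymm (R.submatrix f f) :=
  ⟨by rw [conjTranspose_submatrix, hR.1], by rw [transpose_submatrix, hR.2]⟩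

/-- equivariance of the Cayley transform. -/
theorem cay_orth {m : ℂ} (hm : m.im ≠ 0) {R : Matrix ι ι ℂ} (hR : RealSymm R)
    {O : Matrix ι ι ℝ} (hO : Oᵀ * O = 1) :
    cay m ((toC O)ᵀ * R * toC O) = (toC O)ᵀ * cay m R * toC O := by
  have hO' : O * Oᵀ = 1 := mul_eq_one_comm.mp hO
  have h1 : (toC O)ᵀ * toC O = 1 := by rw [toC_transpose, ← toC_mul, hO, toC_one]
  have h2 : toC O * (toC O)ᵀ = 1 := by rw [toC_transpose, ← toC_mul, hO', toC_one]
  apply eq_cay_of_mul (RealSymm.congr hR O).1 hm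
  have h3 : ∀ c : ℂ, (toC O)ᵀ * R * toC O - c • (1 : Matrix ι ι ℂ) =
      (toC O)ᵀ * (R - c • (1 : Matrix ι ι ℂ)) * toC O := by
    intro c
    rw [Matrix.mul_sub, Matrix.sub_mul, Matrix.mul_smul, Matrix.mul_one, Matrix.smul_mul, h1]
  rw [h3, h3, ← cay_mul hR.1 hm]
  simp only [Matrix.mul_assoc]
  rw [← Matrix.mul_assoc (toC O) (toC O)ᵀ, h2, Matrix.one_mul]

theorem cay_submatrix {m : ℂ} (R : Matrix ι ι ℂ) (e : κ ≃ ι) :
    cay m (R.submatrix e e) = (cay m R).submatrix e e := by
  have h3 : ∀ c : ℂ, R.submatrix e e - c • (1 : Matrix κ κ ℂ) =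
      (R - c • (1 : Matrix ι ι ℂ)).submatrix e e := by
    intro c
    rw [submatrix_sub, Pi.sub_apply, Pi.sub_apply, submatrix_smul]
    simp only [Pi.smul_apply, submatrix_one_equiv]
  rw [cay, h3, h3, inv_submatrix_equiv, submatrix_mul_equiv]
  rfl

end Vale.Agent.P156.H167
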