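import Vale.Agent.P156.H167.Moment
import Vale.Agent.P156.F.Clos

/-! P156, block F: reindexing of symmetric unitary matrices, and the closing of one channel as a
special case of the closing of several channels. -/

open Matrix MeasureTheory Topology
open scoped ComplexConjugate
open Vale.Agent.P156.F Vale.Agent.P156.A

namespace Vale.Agent.P156.H167

set_option linter.unusedSectionVars false

section reindex

variable {ι κ : Type} [Fintype ι] [DecidableEq ι] [Fintype κ] [DecidableEq κ]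

theorem submatrix_mem_unitary (e : κ ≃ ι) {U : Matrix ι ι ℂ} (hU : U ∈ unitaryGroup ι ℂ) :
    U.submatrix e e ∈ unitaryGroup κ ℂ := by
  rw [mem_unitaryGroup_iff] at hU ⊢
  rw [star_eq_conjTranspose] at hU ⊢
  rw [conjTranspose_submatrix, submatrix_mul_equiv, hU, submatrix_one_equiv]

theorem submatrix_mem_symU (e : κ ≃ ι) {S : Matrix ι ι ℂ} (hS : S ∈ symU ι) :
    S.submatrix e e ∈ symU κ :=
  ⟨submatrix_mem_unitary e hS.1, by rw [transpose_submatrix, hS.2]⟩

/-- reindexing -/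
def reS (e : κ ≃ ι) (S : F.SymU ι) : F.SymU κ := ⟨S.1.submatrix e e, submatrix_mem_symU e S.2⟩

/-- reindexing of a unitary matrix -/
def reU (e : κ ≃ ι) (U : unitaryGroup ι ℂ) : unitaryGroup κ ℂ :=
  ⟨U.1.submatrix e e, submatrix_mem_unitary e U.2⟩

theorem continuous_reS (e : κ ≃ ι) : Continuous (reS e) := by
  refine Continuous.subtype_mk ?_ _
  exact continuous_subtype_val.matrix_submatrix _ _

theorem measurable_reS (e : κ ≃ ι) : Measurable (reS e) := (continuous_reS e).measurable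

theorem reS_smul (e : κ ≃ ι) (U : unitaryGroup ι ℂ) (S : F.SymU ι) :
    reS e (U • S) = reU e U • reS e S := by
  apply Subtype.ext
  rw [coe_smul]
  change (U.1 * S.1 * U.1ᵀ).submatrix e e = U.1.submatrix e e * S.1.submatrix e e *
    (U.1.submatrix e e)ᵀ
  rw [transpose_submatrix, submatrix_mul_equiv, submatrix_mul_equiv]

theorem reU_symm (e : κ ≃ ι) (U : unitaryGroup κ ℂ) : reU e (reU e.symm U) = U := by
  apply Subtype.ext
  ext i j
  simp [reU]

theorem InvBy.reS {μ : Measure (F.SymU ι)} {U : unitaryGroup ι ℂ} (h : InvBy μ U) (e : κ ≃ ι) :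
    InvBy (μ.map (H167.reS e)) (reU e U) := by
  unfold InvBy at *
  rw [Measure.map_map (measurable_smul _) (measurable_reS e)]
  have h1 : (fun S : F.SymU κ => reU e U • S) ∘ H167.reS e =
      H167.reS e ∘ (fun S : F.SymU ι => U • S) := by
    funext S
    exact (reS_smul e U S).symm
  rw [h1, ← Measure.map_map (measurable_reS e) (measurable_smul _), h]

theorem OInv.reS {μ : Measure (F.SymU ι)} (h : OInv μ) (e : κ ≃ ι) :
    OInv (μ.map (H167.reS e)) := by
  intro U hU
  have h1 := InvBy.reS (h (reU e.symm U) (fun i j => hU _ _)) e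
  rwa [reU_symm] at h1

theorem DInv.reS {μ : Measure (F.SymU ι)} (h : DInv μ) (e : κ ≃ ι) :
    DInv (μ.map (H167.reS e)) := by
  intro U hU hdet
  have h1 := InvBy.reS (h (reU e.symm U) (fun i j hij => hU (fun h => hij (e.symm.injective h)))
    (by
      change (U.1.submatrix e.symm e.symm).det = 1
      rw [det_submatrix_equiv_self, hdet])) e
  rwa [reU_symm] at h1

theorem SUInv.reS {μ : Measure (F.SymU ι)} (h : SUInv μ) (e : κ ≃ ι) :
    SUInv (μ.map (H167.reS e)) := by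
  intro U hdet
  have h1 := InvBy.reS (h (reU e.symm U)
    (by
      change (U.1.submatrix e.symm e.symm).det = 1
      rw [det_submatrix_equiv_self, hdet])) e
  rwa [reU_symm] at h1

/-- invariance under the whole unitary group -/
def UInv (μ : Measure (F.SymU ι)) : Prop := ∀ U : unitaryGroup ι ℂ, InvBy μ U

theorem UInv.oInv {μ : Measure (F.SymU ι)} (h : UInv μ) : OInv μ := fun U _ => h U

theorem UInv.dInv {μ : Measure (F.SymU ι)} (h : UInv μ) : DInv μ := fun U _ _ => h U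

theorem UInv.suInv {μ : Measure (F.SymU ι)} (h : UInv μ) : SUInv μ := fun U _ => h U

theorem UInv.reS {μ : Measure (F.SymU ι)} (h : UInv μ) (e : κ ≃ ι) :
    UInv (μ.map (H167.reS e)) := by
  intro U
  have h1 := InvBy.reS (h (reU e.symm U)) e
  rwa [reU_symm] at h1

theorem det_reS (e : κ ≃ ι) (S : F.SymU ι) : (reS e S).1.det = S.1.det :=
  det_submatrix_equiv_self e S.1

theorem moment_reS (e : κ ≃ ι) (μ : Measure (F.SymU ι)) (k : ℕ) :
    ∫ S, S.1.det ^ k ∂(μ.map (reS e)) = ∫ S, S.1.det ^ k ∂μ := by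
  have hk : Continuous (fun S : F.SymU κ => S.1.det ^ k) := continuous_det.pow k
  rw [integral_map (measurable_reS e).aemeasurable hk.measurable.aestronglyMeasurable]
  simp only [det_reS]

theorem reS_reS {ν : Type} [Fintype ν] [DecidableEq ν] (e : κ ≃ ι) (e' : ν ≃ κ) (S : F.SymU ι) :
    reS e' (reS e S) = reS (e'.trans e) S := rfl

theorem reS_refl (S : F.SymU ι) : reS (Equiv.refl ι) S = S := rfl

theorem reS_symm (e : κ ≃ ι) (S : F.SymU ι) : reS e.symm (reS e S) = S := by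
  apply Subtype.ext
  ext i j
  simp [reS]

end reindex

/-! ### One channel -/

section one

variable {t : ℕ}

/-- `Fin t ⊕ Unit ≃ Fin (t+1)`, the closed channel is `0`. -/
def eSucc (t : ℕ) : Fin t ⊕ Unit ≃ Fin (t + 1) where
  toFun := Sum.elim Fin.succ (fun _ => 0)
  invFun := Fin.cases (Sum.inr ()) Sum.inl
  left_inv := by
    rintro (i | i) <;> simp
  right_inv := by
    intro i
    refine Fin.cases ?_ (fun j => ?_) i <;> simp

/-- a phase as a `1 × 1` symmetric unitary matrix. -/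
noncomputable def phS (ν : ℂ) (hν : ‖ν‖ = 1) : F.SymU Unit :=
  ⟨diagonal (fun _ => ν⁻¹), diagonal_mem_unitaryGroup (fun _ => by rw [norm_inv, hν, inv_one]),
    diagonal_transpose _⟩

theorem isUnit_phS {ν : ℂ} (hν : ‖ν‖ = 1) (S : F.SymU (Fin (t + 1))) :
    IsUnit ((phS ν hν).1 - (reS (eSucc t) S).1.toBlocks₂₂).det ↔ S.1 0 0 ≠ ν⁻¹ := by
  have h1 : ((phS ν hν).1 - (reS (eSucc t) S).1.toBlocks₂₂).det = ν⁻¹ - S.1 0 0 := by
    rw [det_unique]
    rfl
  rw [h1, isUnit_iff_ne_zero, sub_ne_zero]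
  exact ne_comm

theorem clos_eq_closeS {ν : ℂ} (hν : ‖ν‖ = 1) (S : F.SymU (Fin (t + 1))) :
    clos ν S = closeS (phS ν hν) (reS (eSucc t) S) := by
  by_cases h : S.1 0 0 ≠ ν⁻¹
  · apply Subtype.ext
    rw [coe_clos hν h, coe_closeS ((isUnit_phS hν S).mpr h)]
    ext i j
    rw [closM_apply, closeM, Matrix.add_apply, Matrix.mul_apply]
    simp only [Finset.univ_unique, Finset.sum_singleton, Matrix.mul_apply]
    have h1 : ((phS ν hν).1 - (reS (eSucc t) S).1.toBlocks₂₂)⁻¹ default default =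
        (ν⁻¹ - S.1 0 0)⁻¹ := by
      rw [Matrix.inv_def, adjugate_subsingleton, Matrix.smul_apply, det_unique, Ring.inverse_eq_inv]
      simp only [one_apply_eq, smul_eq_mul, mul_one]
      rfl
    rw [h1]
    rfl
  · apply Subtype.ext
    have h' : ¬ IsUnit ((phS ν hν).1 - (reS (eSucc t) S).1.toBlocks₂₂).det :=
      fun h2 => h ((isUnit_phS hν S).mp h2)
    rw [clos, dif_neg (fun h2 => h h2.2), closeS, dif_neg h']

theorem map_clos {ν : ℂ} (hν : ‖ν‖ = 1) (μ : Measure (F.SymU (Fin (t + 1)))) :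
    μ.map (clos ν) = (μ.map (reS (eSucc t))).map (closeS (phS ν hν)) := by
  rw [Measure.map_map (measurable_closeS _) (measurable_reS _)]
  congr 1
  funext S
  exact clos_eq_closeS hν S

/-- almost sure nonsingularity of the closing of one channel -/
theorem measure_entry_eq_zero (ht : 1 ≤ t) {μ : Measure (F.SymU (Fin (t + 1)))}
    [IsFiniteMeasure μ] (hD : DInv μ) {ν : ℂ} (hν : ‖ν‖ = 1) :
    μ {S | S.1 0 0 ≠ ν⁻¹}ᶜ = 0 := by
  have : Nonempty (Fin t) := ⟨⟨0, by omega⟩⟩
  have h1 := measure_goodS_compl (κ := Fin t) (DInv.reS hD (eSucc t)) (phS ν hν)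
  rw [Measure.map_apply (measurable_reS _) (isOpen_goodS _).measurableSet.compl] at h1
  refine measure_mono_null ?_ h1
  intro S hS
  exact fun h2 => hS ((isUnit_phS hν S).mp h2)

theorem OInv.clos (ht : 1 ≤ t) {μ : Measure (F.SymU (Fin (t + 1)))} [IsFiniteMeasure μ]
    (hO : OInv μ) (hD : DInv μ) {ν : ℂ} (hν : ‖ν‖ = 1) : OInv (μ.map (F.clos ν)) := by
  have : Nonempty (Fin t) := ⟨⟨0, by omega⟩⟩
  rw [map_clos hν]
  exact OInv.closeS (measure_goodS_compl (κ := Fin t) (DInv.reS hD (eSucc t)) (phS ν hν))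
    (fun U hU => OInv.reS hO (eSucc t) _ (isReal_extU hU))

theorem DInv.clos (ht : 1 ≤ t) {μ : Measure (F.SymU (Fin (t + 1)))} [IsFiniteMeasure μ]
    (hD : DInv μ) {ν : ℂ} (hν : ‖ν‖ = 1) : DInv (μ.map (F.clos ν)) := by
  have : Nonempty (Fin t) := ⟨⟨0, by omega⟩⟩
  rw [map_clos hν]
  exact DInv.closeS (measure_goodS_compl (κ := Fin t) (DInv.reS hD (eSucc t)) (phS ν hν))
    (DInv.reS hD (eSucc t))

theorem UInv.clos (ht : 1 ≤ t) {μ : Measure (F.SymU (Fin (t + 1)))} [IsFiniteMeasure μ]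
    (hU : UInv μ) {ν : ℂ} (hν : ‖ν‖ = 1) : UInv (μ.map (F.clos ν)) := by
  have : Nonempty (Fin t) := ⟨⟨0, by omega⟩⟩
  rw [map_clos hν]
  intro U
  exact InvBy.closeS (measure_goodS_compl (κ := Fin t) (DInv.reS hU.dInv (eSucc t)) (phS ν hν))
    (UInv.reS hU (eSucc t) _)

theorem norm_moment_clos_le (ht : 1 ≤ t) {μ : Measure (F.SymU (Fin (t + 1)))}
    [IsProbabilityMeasure μ] (hSU : SUInv μ) {ν : ℂ} (hν : ‖ν‖ = 1) (k : ℕ) :
    ‖∫ S, S.1.det ^ k ∂(μ.map (F.clos ν))‖ ≤ ‖∫ S, S.1.det ^ k ∂μ‖ := by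
  have : Nonempty (Fin t) := ⟨⟨0, by omega⟩⟩
  have : IsProbabilityMeasure (μ.map (reS (eSucc t))) :=
    Measure.isProbabilityMeasure_map (measurable_reS _).aemeasurable
  rw [map_clos hν]
  refine (norm_moment_closeS_le (SUInv.reS hSU (eSucc t)) (phS ν hν) k).trans ?_
  rw [moment_reS]

/-- the Cayley transform of the compression to the channels `≥ 1`. -/
theorem clos_cay {m : ℂ} (hm : m.im ≠ 0) {R : Matrix (Fin (t + 1)) (Fin (t + 1)) ℂ}
    (hR : RealSymm R) {S : F.SymU (Fin (t + 1))} (hS : S.1 = cay m R) :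
    S.1 0 0 ≠ 1 ∧ (clos 1 S).1 = cay m (R.submatrix Fin.succ Fin.succ) := by
  have h00 : S.1 0 0 ≠ 1 := by
    intro h1
    -- the first column of `S` is the first unit vector
    have hcol : ∑ k, conj (S.1 k 0) * S.1 k 0 = 1 := by
      have h := congrFun (congrFun (mem_unitaryGroup_iff'.mp S.2.1) 0) 0
      rw [Matrix.mul_apply, Matrix.one_apply_eq] at h
      rw [← h]
      rfl
    have hcol2 : ∑ k, ‖S.1 k 0‖ ^ 2 = 1 := by
      have h2 : ((∑ k, ‖S.1 k 0‖ ^ 2 : ℝ) : ℂ) = 1 := by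
        rw [← hcol]
        push_cast
        refine Finset.sum_congr rfl fun k _ => ?_
        rw [mul_comm, Complex.mul_conj, Complex.normSq_eq_norm_sq]
        push_cast
        rfl
      exact_mod_cast h2
    rw [Fin.sum_univ_succ, h1, norm_one, one_pow] at hcol2
    have h3 : ∑ k : Fin t, ‖S.1 k.succ 0‖ ^ 2 = 0 := by linarith
    have h4 : ∀ k : Fin t, S.1 k.succ 0 = 0 := by
      intro k
      have h5 := (Finset.sum_eq_zero_iff_of_nonneg (fun i _ => sq_nonneg _)).mp h3 k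
        (Finset.mem_univ k)
      have h6 : ‖S.1 k.succ 0‖ = 0 := by
        nlinarith [sq_nonneg ‖S.1 k.succ 0‖, norm_nonneg (S.1 k.succ 0)]
      exact norm_eq_zero.mp h6
    have hu := isUnit_one_sub_cay hR.1 hm
    rw [← hS] at hu
    have h7 : (1 - S.1) *ᵥ (Pi.single 0 1) = 0 := by
      rw [Matrix.mulVec_single_one]
      funext i
      refine Fin.cases ?_ (fun j => ?_) i
      · simp [h1]
      · simp [h4 j, Fin.succ_ne_zero]
    have h8 : (Pi.single 0 1 : Fin (t + 1) → ℂ) = 0 := by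
      have h9 : (1 - S.1)⁻¹ *ᵥ ((1 - S.1) *ᵥ (Pi.single 0 1)) = 0 := by rw [h7, mulVec_zero]
      rwa [mulVec_mulVec, nonsing_inv_mul _ hu, one_mulVec] at h9
    have := congrFun h8 0
    simp at this
  refine ⟨h00, ?_⟩
  have h00' : S.1 0 0 ≠ (1 : ℂ)⁻¹ := by rwa [inv_one]
  rw [coe_clos norm_one h00']
  symm
  have hR' : RealSymm (R.submatrix Fin.succ Fin.succ) :=
    ⟨by rw [conjTranspose_submatrix, hR.1], by rw [transpose_submatrix, hR.2]⟩
  apply eq_cay_of_mul hR'.1 hm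
  have hrel := cay_mul hR.1 hm
  rw [← hS] at hrel
  have hent : ∀ (i : Fin (t + 1)) (j : Fin t), S.1 i 0 * R 0 j.succ +
      ∑ k : Fin t, S.1 i k.succ * (R k.succ j.succ - conj m * (1 : Matrix _ _ ℂ) k j) =
      R i j.succ - m * (1 : Matrix _ _ ℂ) i j.succ := by
    intro i j
    have h := congrFun (congrFun hrel i) j.succ
    rw [Matrix.mul_apply, Fin.sum_univ_succ] at h
    simp only [Matrix.sub_apply, Matrix.smul_apply, smul_eq_mul] at h
    rw [Matrix.one_apply_ne (Fin.succ_ne_zero j).symm, mul_zero, sub_zero] at h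
    rw [← h]
    congr 1
    refine Finset.sum_congr rfl fun k _ => ?_
    congr 2
    simp only [Matrix.one_apply, Fin.succ_inj]
  ext i j
  rw [Matrix.mul_apply]
  simp only [Matrix.sub_apply, Matrix.smul_apply, smul_eq_mul, closM_apply, submatrix_apply,
    inv_one]
  have e0 := hent 0 j
  have e1 := hent i.succ j
  rw [Matrix.one_apply_ne (Fin.succ_ne_zero j).symm, mul_zero, sub_zero] at e0
  have hne : (1 : ℂ) - S.1 0 0 ≠ 0 := sub_ne_zero.mpr (Ne.symm h00)
  have e2 : ∑ k : Fin t, (S.1 i.succ k.succ + S.1 i.succ 0 * (1 - S.1 0 0)⁻¹ * S.1 0 k.succ) *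
      (R k.succ j.succ - conj m * (1 : Matrix _ _ ℂ) k j) =
      ∑ k : Fin t, S.1 i.succ k.succ * (R k.succ j.succ - conj m * (1 : Matrix _ _ ℂ) k j) +
      S.1 i.succ 0 * (1 - S.1 0 0)⁻¹ *
        ∑ k : Fin t, S.1 0 k.succ * (R k.succ j.succ - conj m * (1 : Matrix _ _ ℂ) k j) := by
    rw [Finset.mul_sum, ← Finset.sum_add_distrib]
    refine Finset.sum_congr rfl fun k _ => ?_
    ring
  rw [e2]
  have e3 : ∑ k : Fin t, S.1 0 k.succ * (R k.succ j.succ - conj m * (1 : Matrix _ _ ℂ) k j) =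
      (1 - S.1 0 0) * R 0 j.succ := by
    linear_combination e0
  rw [e3, mul_assoc, ← mul_assoc (1 - S.1 0 0)⁻¹, inv_mul_cancel₀ hne, one_mul]
  have e4 : (1 : Matrix (Fin (t + 1)) (Fin (t + 1)) ℂ) i.succ j.succ =
      (1 : Matrix (Fin t) (Fin t) ℂ) i j := by
    simp only [Matrix.one_apply, Fin.succ_inj]
  rw [e4] at e1
  linear_combination e1

end one

end Vale.Agent.P156.H167
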