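import Vale.Agent.P156.H167.Moment

/-! P156, block F: the special unitary group is generated by the real orthogonal matrices and the
diagonal matrices of determinant one. -/

open Matrix MeasureTheory Topology
open scoped ComplexConjugate
open Vale.Agent.P156.F Vale.Agent.P156.A

namespace Vale.Agent.P156.H167

set_option linter.unusedSectionVars false

variable {ι : Type} [Fintype ι] [DecidableEq ι]

theorem IsReal.mul_transpose {O : unitaryGroup ι ℂ} (hO : IsReal O) : O.1 * O.1ᵀ = 1 := by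
  have h1 : star O.1 = O.1ᵀ := by
    ext i j
    rw [star_apply, transpose_apply]
    exact Complex.conj_eq_iff_im.mpr (hO j i)
  rw [← h1]
  exact mem_unitaryGroup_iff.mp O.2

theorem IsReal.transpose_mul {O : unitaryGroup ι ℂ} (hO : IsReal O) : O.1ᵀ * O.1 = 1 :=
  mul_eq_one_comm.mp (IsReal.mul_transpose hO)

theorem isReal_of_mul_transpose {O : unitaryGroup ι ℂ} (hO : O.1 * O.1ᵀ = 1) : IsReal O := by
  have h1 : star O.1 = O.1ᵀ := by
    have h2 : star O.1 * O.1 = 1 := mem_unitaryGroup_iff'.mp O.2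
    calc star O.1 = star O.1 * (O.1 * O.1ᵀ) := by rw [hO, Matrix.mul_one]
      _ = O.1ᵀ := by rw [← Matrix.mul_assoc, h2, Matrix.one_mul]
  intro i j
  have h3 := congrFun (congrFun h1 j) i
  rw [star_apply, transpose_apply] at h3
  exact Complex.conj_eq_iff_im.mp h3

theorem det_sq_of_real {O : unitaryGroup ι ℂ} (hO : IsReal O) : O.1.det ^ 2 = 1 := by
  have h := congrArg Matrix.det (IsReal.mul_transpose hO)
  rw [det_mul, det_transpose, det_one] at h
  rw [sq, h]

/-- decomposition of a unitary matrix of determinant one. -/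
theorem exists_KAK [Nonempty ι] (U : unitaryGroup ι ℂ) (hU : U.1.det = 1) :
    ∃ O E O' : unitaryGroup ι ℂ, IsReal O ∧ IsReal O' ∧ E.1.IsDiag ∧ E.1.det = 1 ∧
      U = O * E * O' := by
  classical
  have hS : U.1 * U.1ᵀ ∈ symU ι := by
    refine ⟨mul_mem U.2 (transpose_mem_unitaryGroup U.2), ?_⟩
    rw [transpose_mul, transpose_transpose]
  obtain ⟨O, d, hO, hd, hSd⟩ := exists_real_diag hS
  have h1 : ∀ i, ∃ e : ℂ, e ^ 2 = d i := fun i => IsAlgClosed.exists_pow_nat_eq (d i) (by norm_num)
  choose e he using h1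
  -- any square root of `d` gives a decomposition
  have key : ∀ f : ι → ℂ, (∀ i, f i ^ 2 = d i) → ∃ E O' : unitaryGroup ι ℂ,
      E.1 = diagonal f ∧ IsReal O' ∧ U = O * E * O' := by
    intro f hf
    have hfn : ∀ i, ‖f i‖ = 1 := by
      intro i
      have h2 : ‖f i‖ ^ 2 = 1 := by rw [← norm_pow, hf, hd]
      have h3 := norm_nonneg (f i)
      nlinarith [sq_nonneg (‖f i‖ - 1), sq_nonneg (‖f i‖ + 1)]
    set E : unitaryGroup ι ℂ := ⟨diagonal f, diagonal_mem_unitaryGroup hfn⟩ with hE
    refine ⟨E, (O * E)⁻¹ * U, rfl, ?_, by rw [mul_inv_cancel_left]⟩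
    apply isReal_of_mul_transpose
    have e1 : ((O * E)⁻¹ * U).1 = (O * E)⁻¹.1 * U.1 := rfl
    have e2 : (O * E)⁻¹.1 * (O.1 * E.1) = 1 := by
      have : (O * E)⁻¹.1 * (O * E).1 = ((O * E)⁻¹ * (O * E)).1 := rfl
      rw [inv_mul_cancel] at this
      exact this
    have e3 : O.1 * diagonal d * O.1ᵀ = (O.1 * E.1) * (O.1 * E.1)ᵀ := by
      have : diagonal d = E.1 * E.1ᵀ := by
        rw [hE]
        simp only [diagonal_transpose, diagonal_mul_diagonal]
        congr 1
        funext i
        rw [← hf i, sq]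
      rw [this, Matrix.transpose_mul]
      simp only [Matrix.mul_assoc]
    rw [e1, Matrix.transpose_mul]
    calc (O * E)⁻¹.1 * U.1 * (U.1ᵀ * ((O * E)⁻¹.1)ᵀ)
        = (O * E)⁻¹.1 * (U.1 * U.1ᵀ) * ((O * E)⁻¹.1)ᵀ := by simp only [Matrix.mul_assoc]
      _ = ((O * E)⁻¹.1 * (O.1 * E.1)) * ((O * E)⁻¹.1 * (O.1 * E.1))ᵀ := by
          rw [hSd, e3, Matrix.transpose_mul ((O * E)⁻¹.1)]
          simp only [Matrix.mul_assoc]
      _ = 1 := by rw [e2, Matrix.transpose_one, Matrix.mul_one]
  obtain ⟨E, O', hE, hO', hUE⟩ := key e he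
  have hdet : U.1.det = O.1.det * E.1.det * O'.1.det := by
    conv_lhs => rw [hUE]
    change (O.1 * E.1 * O'.1).det = _
    rw [det_mul, det_mul]
  have hE2 : E.1.det ^ 2 = 1 := by
    have h2 : (O.1.det * E.1.det * O'.1.det) ^ 2 = 1 := by rw [← hdet, hU, one_pow]
    rw [mul_pow, mul_pow, det_sq_of_real hO, det_sq_of_real hO', one_mul, mul_one] at h2
    exact h2
  have hE3 : E.1.det = 1 ∨ E.1.det = -1 := by
    have : (E.1.det - 1) * (E.1.det + 1) = 0 := by linear_combination hE2
    rcases mul_eq_zero.mp this with h1 | h1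
    · left; linear_combination h1
    · right; linear_combination h1
  rcases hE3 with h | h
  · exact ⟨O, E, O', hO, hO', by rw [hE]; exact isDiag_diagonal _, h, hUE⟩
  · obtain ⟨i₀⟩ := ‹Nonempty ι›
    obtain ⟨E', O'', hE', hO'', hUE'⟩ := key (Function.update e i₀ (-(e i₀))) (by
      intro i
      by_cases hi : i = i₀
      · subst hi
        rw [Function.update_self, neg_sq, he]
      · rw [Function.update_of_ne hi, he])
    refine ⟨O, E', O'', hO, hO'', by rw [hE']; exact isDiag_diagonal _, ?_, hUE'⟩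
    rw [hE', det_diagonal, Finset.prod_update_of_mem (Finset.mem_univ i₀)]
    rw [hE, det_diagonal, ← Finset.mul_prod_erase _ _ (Finset.mem_univ i₀)] at h
    rw [Finset.sdiff_singleton_eq_erase]
    linear_combination -h

/-- (L4) -/
theorem suInv_of {μ : Measure (F.SymU ι)} (hO : OInv μ) (hD : DInv μ) : SUInv μ := by
  intro U hU
  rcases isEmpty_or_nonempty ι with h | h
  · have : U = 1 := by
      apply Subtype.ext
      ext i
      exact (h.false i).elim
    rw [this]
    unfold InvBy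
    simp
  · obtain ⟨O, E, O', h1, h2, h3, h4, rfl⟩ := exists_KAK U hU
    exact ((hO O h1).mul (hD E h3 h4)).mul (hO O' h2)

end Vale.Agent.P156.H167
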