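import Vale.Agent.P156.H167.Bridge
import Vale.Agent.P156.H167.Reindex
import Vale.Agent.P156.H167.Orth
import Vale.Agent.P156.H167.SU

/-! P156, block F: limit laws of the Cayley transforms of compressions. -/

open Matrix MeasureTheory Filter Topology

namespace Vale.Agent.P156.H167

open Vale.Agent.P156 Vale.Agent.P156.F Vale.Agent.P156.A Vale.Agent.P156.Lim

set_option linter.unusedSectionVars false

/-- limit laws only depend on the values on the samples -/
theorem isLimitLaw_congr {X ι' : Type*} [TopologicalSpace X] [MeasurableSpace X] {L : Filter ι'}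
    {Ω : ι' → Type*} {s : ∀ i, Finset (Ω i)} {S S' : ∀ i, Ω i → X} {μ : Measure X}
    (h : IsLimitLaw L s S μ) (he : ∀ᶠ i in L, ∀ ω ∈ s i, S i ω = S' i ω) :
    IsLimitLaw L s S' μ := by
  intro F
  refine (h F).congr' ?_
  filter_upwards [he] with i hi
  unfold avg
  congr 1
  refine Finset.sum_congr rfl fun ω hω => ?_
  simp only [hi ω hω]

section chain

variable {L : Filter ℕ} {Ω : ℕ → Type*} {s : ∀ n, Finset (Ω n)} {m : ℕ → ℂ}

/-- one step: dropping the channel `0`. -/
theorem drop_one (hs : ∀ᶠ n in L, (s n).Nonempty) (hm : ∀ᶠ n in L, (m n).im ≠ 0) {t : ℕ}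
    (ht : 1 ≤ t) {R : ∀ n, Ω n → Matrix (Fin (t + 1)) (Fin (t + 1)) ℂ}
    (hR : ∀ᶠ n in L, ∀ ω ∈ s n, RealSymm (R n ω)) {μ : Measure (F.SymU (Fin (t + 1)))}
    [IsProbabilityMeasure μ] (h : IsLimitLaw L s (fun n ω => toSU (cay (m n) (R n ω))) μ)
    (hD : DInv μ) :
    IsLimitLaw L s (fun n ω => toSU (cay (m n) ((R n ω).submatrix Fin.succ Fin.succ)))
      (μ.map (clos 1)) := by
  have h0 := measure_entry_eq_zero ht hD (ν := 1) norm_one
  have h1 := h.map hs (f := clos 1) (measurable_clos 1) (by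
    have h2 : ∀ᵐ S ∂μ, S ∈ {S : F.SymU (Fin (t + 1)) | S.1 0 0 ≠ (1 : ℂ)⁻¹} := h0
    filter_upwards [h2] with S hS
    exact (continuousOn_clos norm_one S hS).continuousAt ((isOpen_entry_ne t _).mem_nhds hS))
  refine isLimitLaw_congr h1 ?_
  filter_upwards [hm, hR] with n hmn hRn ω hω
  have hRS := hRn ω hω
  apply Subtype.ext
  rw [(clos_cay hmn hRS (coe_toSU (cay_mem_symU hmn hRS))).2,
    coe_toSU (cay_mem_symU hmn (RealSymm.submatrix hRS _))]

/-- Several steps. -/
theorem drop_many (hs : ∀ᶠ n in L, (s n).Nonempty) (hm : ∀ᶠ n in L, (m n).im ≠ 0) {M : ℕ}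
    (hM : 1 ≤ M) (p : ℕ) : ∀ {R : ∀ n, Ω n → Matrix (Fin (M + p)) (Fin (M + p)) ℂ}
    (_ : ∀ᶠ n in L, ∀ ω ∈ s n, RealSymm (R n ω)) {μ : Measure (F.SymU (Fin (M + p)))}
    [IsProbabilityMeasure μ] (_ : IsLimitLaw L s (fun n ω => toSU (cay (m n) (R n ω))) μ)
    (_ : OInv μ) (_ : DInv μ),
    ∃ μ' : Measure (F.SymU (Fin M)), IsProbabilityMeasure μ' ∧
      IsLimitLaw L s (fun n ω => toSU (cay (m n)
        ((R n ω).submatrix (fun i => Fin.addNat i p) (fun i => Fin.addNat i p)))) μ' ∧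
      OInv μ' ∧ DInv μ' ∧ (UInv μ → UInv μ') ∧
      ∀ k : ℕ, ‖∫ S, S.1.det ^ k ∂μ'‖ ≤ ‖∫ S, S.1.det ^ k ∂μ‖ := by
  induction p with
  | zero =>
    intro R hR μ hμ h hO hD
    exact ⟨μ, hμ, h, hO, hD, id, fun k => le_rfl⟩
  | succ p ih =>
    intro R hR μ hμ h hO hD
    have ht : 1 ≤ M + p := by omega
    have h1 := drop_one hs hm ht hR h hD
    have hp1 : IsProbabilityMeasure (μ.map (clos (t := M + p) 1)) :=
      Measure.isProbabilityMeasure_map (measurable_clos 1).aemeasurable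
    obtain ⟨μ', hμ', hl, hO', hD', hU', hk⟩ := ih
      (R := fun n ω => (R n ω).submatrix Fin.succ Fin.succ)
      (by
        filter_upwards [hR] with n hn ω hω
        exact RealSymm.submatrix (hn ω hω) _) h1
      (OInv.clos ht hO hD norm_one) (DInv.clos ht hD norm_one)
    refine ⟨μ', hμ', ?_, hO', hD', fun hU => hU' (UInv.clos ht hU norm_one),
      fun k => (hk k).trans ?_⟩
    · exact hl
    · exact norm_moment_clos_le ht (suInv_of hO hD) norm_one k

/-- The limit law of the Cayley transform of a compression `Pᵀ R P` (`P` a real isometry): it is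
invariant, and the moments of the determinant are contracted. -/
theorem compress_law (hs : ∀ᶠ n in L, (s n).Nonempty) (hm : ∀ᶠ n in L, (m n).im ≠ 0)
    {ι κ : Type} [Fintype ι] [DecidableEq ι] [Fintype κ] [DecidableEq κ]
    (P : Matrix ι κ ℝ) (hP : Pᵀ * P = 1) (hκ : 1 ≤ Fintype.card κ) {t : ℕ}
    (ht : Fintype.card ι = t + 1) (hlt : Fintype.card κ ≤ t)
    {R : ∀ n, Ω n → Matrix ι ι ℂ} (hR : ∀ᶠ n in L, ∀ ω ∈ s n, RealSymm (R n ω))
    {μ : Measure (F.SymU ι)} [IsProbabilityMeasure μ]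
    (h : IsLimitLaw L s (fun n ω => toSU (cay (m n) (R n ω))) μ) (hO : OInv μ) (hD : DInv μ)
    {ρ : ℕ → ℝ} (hρ : ∀ (ν : Measure (F.SymU (Fin (t + 1)))) [IsProbabilityMeasure ν], OInv ν →
      DInv ν → ∀ k : ℕ, ‖∫ S, S.1.det ^ k ∂(ν.map (clos 1))‖ ≤ ρ k * ‖∫ S, S.1.det ^ k ∂ν‖) :
    ∃ H : Measure (F.SymU κ), IsProbabilityMeasure H ∧
      IsLimitLaw L s (fun n ω => toSU (cay (m n) ((toC P)ᵀ * R n ω * toC P))) H ∧
      OInv H ∧ DInv H ∧ (UInv μ → UInv H) ∧
      ∀ k : ℕ, ‖∫ S, S.1.det ^ k ∂H‖ ≤ ρ k * ‖∫ S, S.1.det ^ k ∂μ‖ := by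
  classical
  obtain ⟨p, hp⟩ : ∃ p, t = Fintype.card κ + p := ⟨t - Fintype.card κ, by omega⟩
  subst hp
  set M := Fintype.card κ with hM
  set e' : κ ≃ Fin M := Fintype.equivFin κ with he'
  set g : κ → Fin (M + p + 1) := fun k => Fin.addNat (e' k) (p + 1) with hg
  have hginj : Function.Injective g := by
    intro a b hab
    apply e'.injective
    have h1 : (g a).1 = (g b).1 := by rw [hab]
    simp only [hg, Fin.val_addNat] at h1
    exact Fin.ext (by omega)
  obtain ⟨Q, hQ1, hQ2, hQP⟩ := exists_orth_extension P hP ht g hginj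
  set e : Fin (M + p + 1) ≃ ι := (Fintype.equivFinOfCardEq ht).symm with he
  set W : Matrix ι ι ℝ := Q.submatrix id e.symm with hW
  have hWW : Wᵀ * W = 1 := by
    rw [hW, transpose_submatrix]
    have : Qᵀ.submatrix e.symm id * Q.submatrix id e.symm = (Qᵀ * Q).submatrix e.symm e.symm := by
      rw [submatrix_mul (Qᵀ) Q e.symm id e.symm Function.bijective_id]
    rw [this, hQ1, submatrix_one_equiv]
  have hQW : toC Q = (toC W).submatrix id e := by
    ext a b
    simp [toC_apply, hW]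
  have hWu : (toC W)ᵀ ∈ unitaryGroup ι ℂ := by
    rw [mem_unitaryGroup_iff, star_eq_conjTranspose, toC_transpose, toC_conjTranspose,
      transpose_transpose, ← toC_mul, hWW, toC_one]
  set U : unitaryGroup ι ℂ := ⟨(toC W)ᵀ, hWu⟩ with hU
  have hUr : IsReal U := by
    intro a b
    change ((W b a : ℝ) : ℂ).im = 0
    exact Complex.ofReal_im _
  -- the matrix in the new basis
  have hT : ∀ n ω, (toC Q)ᵀ * R n ω * toC Q =
      ((toC W)ᵀ * R n ω * toC W).submatrix e e := by
    intro n ω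
    rw [hQW, transpose_submatrix]
    have h1 : ((toC W)ᵀ * R n ω * toC W).submatrix e e =
        ((toC W)ᵀ * R n ω).submatrix e id * (toC W).submatrix id e := by
      rw [submatrix_mul _ _ _ id _ Function.bijective_id]
    have h2 : ((toC W)ᵀ * R n ω).submatrix e id = ((toC W)ᵀ).submatrix e id * R n ω := by
      rw [submatrix_mul _ _ _ id _ Function.bijective_id, submatrix_id_id]
    rw [h1, h2]
  have hlaw1 : IsLimitLaw L s (fun n ω => toSU (cay (m n) ((toC Q)ᵀ * R n ω * toC Q)))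
      (μ.map (reS e)) := by
    have h1 := (h.map_continuous (continuous_const_smul U)).map_continuous (continuous_reS e)
    have h2 : μ.map (fun S => U • S) = μ := hO U hUr
    rw [h2] at h1
    refine isLimitLaw_congr h1 ?_
    filter_upwards [hm, hR] with n hmn hRn ω hω
    have hRS := hRn ω hω
    apply Subtype.ext
    rw [coe_toSU (cay_mem_symU hmn (by rw [hT]; exact RealSymm.submatrix (RealSymm.congr hRS W) e)), hT,
      cay_submatrix, cay_orth hmn hRS hWW]
    change (U.1 * (toSU (cay (m n) (R n ω))).1 * U.1ᵀ).submatrix e e = _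
    rw [coe_toSU (cay_mem_symU hmn hRS)]
    rfl
  have hpr : IsProbabilityMeasure (μ.map (reS e)) :=
    Measure.isProbabilityMeasure_map (measurable_reS e).aemeasurable
  have hO1 := OInv.reS hO e
  have hD1 := DInv.reS hD e
  have hR1 : ∀ᶠ n in L, ∀ ω ∈ s n, RealSymm ((toC Q)ᵀ * R n ω * toC Q) := by
    filter_upwards [hR] with n hn ω hω
    rw [hT]
    exact RealSymm.submatrix (RealSymm.congr (hn ω hω) W) e
  have ht1 : 1 ≤ M + p := by omega
  have hlaw2 := drop_one hs hm ht1 hR1 hlaw1 hD1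
  have hpr2 : IsProbabilityMeasure ((μ.map (reS e)).map (clos (t := M + p) 1)) :=
    Measure.isProbabilityMeasure_map (measurable_clos 1).aemeasurable
  obtain ⟨μ', hμ', hl, hO', hD', hU', hk⟩ := drop_many hs hm hκ p
    (R := fun n ω => ((toC Q)ᵀ * R n ω * toC Q).submatrix Fin.succ Fin.succ)
    (by
      filter_upwards [hR1] with n hn ω hω
      exact RealSymm.submatrix (hn ω hω) _) hlaw2
    (OInv.clos ht1 hO1 hD1 norm_one) (DInv.clos ht1 hD1 norm_one)
  refine ⟨μ'.map (reS e'), Measure.isProbabilityMeasure_map (measurable_reS e').aemeasurable, ?_,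
    OInv.reS hO' e', DInv.reS hD' e',
    fun hU => UInv.reS (hU' (UInv.clos ht1 (UInv.reS hU e) norm_one)) e', fun k => ?_⟩
  · refine isLimitLaw_congr (hl.map_continuous (continuous_reS e')) ?_
    filter_upwards [hm, hR, hR1] with n hmn hRn hRn1 ω hω
    have hRS := hRn ω hω
    have hRS1 := hRn1 ω hω
    apply Subtype.ext
    rw [coe_toSU (cay_mem_symU hmn (RealSymm.congr hRS P))]
    change (toSU (cay (m n) _)).1.submatrix e' e' = _
    rw [coe_toSU (cay_mem_symU hmn (RealSymm.submatrix (RealSymm.submatrix hRS1 _) _)),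
      ← cay_submatrix]
    congr 1
    have h1 : toC P = (toC Q).submatrix id g := by
      ext a b
      rw [submatrix_apply, toC_apply, toC_apply, ← hQP]
      rfl
    rw [h1, transpose_submatrix]
    have h3 : ((toC Q)ᵀ * R n ω * toC Q).submatrix g g =
        ((toC Q)ᵀ).submatrix g id * R n ω * (toC Q).submatrix id g := by
      rw [submatrix_mul _ _ _ id _ Function.bijective_id,
        submatrix_mul _ _ _ id _ Function.bijective_id, submatrix_id_id]
    rw [← h3]
    rfl
  · rw [moment_reS]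
    refine (hk k).trans ?_
    have h1 := hρ (μ.map (reS e)) hO1 hD1 k
    rw [moment_reS] at h1
    exact h1

/-- The limit law of the Cayley transform of a compression, for a law invariant under the whole
unitary group. -/
theorem compress_UInv (hs : ∀ᶠ n in L, (s n).Nonempty) (hm : ∀ᶠ n in L, (m n).im ≠ 0)
    {ι κ : Type} [Fintype ι] [DecidableEq ι] [Fintype κ] [DecidableEq κ]
    (P : Matrix ι κ ℝ) (hP : Pᵀ * P = 1) (hκ : 1 ≤ Fintype.card κ)
    (hlt : Fintype.card κ < Fintype.card ι)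
    {R : ∀ n, Ω n → Matrix ι ι ℂ} (hR : ∀ᶠ n in L, ∀ ω ∈ s n, RealSymm (R n ω))
    {μ : Measure (F.SymU ι)} [IsProbabilityMeasure μ]
    (h : IsLimitLaw L s (fun n ω => toSU (cay (m n) (R n ω))) μ) (hU : UInv μ) :
    ∃ H : Measure (F.SymU κ), IsProbabilityMeasure H ∧
      IsLimitLaw L s (fun n ω => toSU (cay (m n) ((toC P)ᵀ * R n ω * toC P))) H ∧ UInv H := by
  obtain ⟨t, ht⟩ : ∃ t, Fintype.card ι = t + 1 := ⟨Fintype.card ι - 1, by omega⟩
  obtain ⟨H, h1, h2, -, -, h5, -⟩ := compress_law hs hm P hP hκ ht (by omega) hR h hU.oInv hU.dInv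
    (ρ := fun _ => 1) (fun ν _ hO hD k => by
      rw [one_mul]
      exact norm_moment_clos_le (by omega) (suInv_of hO hD) norm_one k)
  exact ⟨H, h1, h2, h5 hU⟩

end chain

end Vale.Agent.P156.H167
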