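import Vale.Agent.P156.H167.Weak
import Vale.Agent.P156.H167.Chain

/-! P156, block F: limit laws of closed systems. -/

open Matrix MeasureTheory Filter Topology
open scoped ComplexConjugate

namespace Vale.Agent.P156.H167

open Vale.Agent.P156 Vale.Agent.P156.F Vale.Agent.P156.A Vale.Agent.P156.Lim

set_option linter.unusedSectionVars false

variable {κ τ : Type} [Fintype κ] [DecidableEq κ] [Fintype τ] [DecidableEq τ]

theorem continuousAt_cay {K : Matrix τ τ ℂ} (hK : Kᴴ = K) {m₀ : ℂ} (hm : m₀.im ≠ 0) :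
    ContinuousAt (fun m : ℂ => cay m K) m₀ := by
  unfold cay
  have h1 : Continuous (fun m : ℂ => K - m • (1 : Matrix τ τ ℂ)) :=
    continuous_const.sub (continuous_matrix fun i j =>
      (continuous_id.mul continuous_const : Continuous fun m : ℂ => m * (1 : Matrix τ τ ℂ) i j))
  have h2 : Continuous (fun m : ℂ => K - conj m • (1 : Matrix τ τ ℂ)) :=
    h1.comp Complex.continuous_conj
  have h3 : ContinuousAt (fun m : ℂ => (K - conj m • (1 : Matrix τ τ ℂ))⁻¹) m₀ := by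
    simp only [Matrix.inv_def, Ring.inverse_eq_inv]
    refine ContinuousAt.smul (M := ℂ) (X := Matrix τ τ ℂ) ?_ h2.matrix_adjugate.continuousAt
    exact h2.matrix_det.continuousAt.inv₀ (unit_conj hK hm).ne_zero
  exact ContinuousAt.mul h1.continuousAt h3

theorem tendsto_toSU_cay {L : Filter ℕ} {m : ℕ → ℂ} {m₀ : ℂ} (hm : m₀.im ≠ 0)
    (hlim : Tendsto m L (𝓝 m₀)) {K : Matrix τ τ ℂ} (hK : RealSymm K) :
    Tendsto (fun n => toSU (cay (m n) K)) L (𝓝 (toSU (cay m₀ K))) := by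
  rw [tendsto_subtype_rng, coe_toSU (cay_mem_symU hm hK)]
  have h1 : Tendsto (fun n => cay (m n) K) L (𝓝 (cay m₀ K)) :=
    (continuousAt_cay hK.1 hm).tendsto.comp hlim
  refine h1.congr' ?_
  have h2 : ∀ᶠ n in L, (m n).im ≠ 0 := by
    have h3 : Tendsto (fun n => (m n).im) L (𝓝 m₀.im) :=
      (Complex.continuous_im.tendsto _).comp hlim
    exact h3.eventually_ne hm
  filter_upwards [h2] with n hn
  rw [coe_toSU (cay_mem_symU hn hK)]

theorem eventually_im_ne {L : Filter ℕ} {m : ℕ → ℂ} {m₀ : ℂ} (hm : m₀.im ≠ 0)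
    (hlim : Tendsto m L (𝓝 m₀)) : ∀ᶠ n in L, (m n).im ≠ 0 := by
  have h3 : Tendsto (fun n => (m n).im) L (𝓝 m₀.im) :=
    (Complex.continuous_im.tendsto _).comp hlim
  exact h3.eventually_ne hm

instance {ι : Type} [Fintype ι] [DecidableEq ι] : TopologicalSpace.MetrizableSpace (F.SymU ι) := by
  have : TopologicalSpace.MetrizableSpace (Matrix ι ι ℂ) :=
    inferInstanceAs (TopologicalSpace.MetrizableSpace (ι → ι → ℂ))
  infer_instance

/-- The law of a closed system. -/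
theorem closing_law {L : Filter ℕ} [L.NeBot] {Ω : ℕ → Type*} {s : ∀ n, Finset (Ω n)}
    {m : ℕ → ℂ} {m₀ : ℂ} (hm : m₀.im ≠ 0) (hlim : Tendsto m L (𝓝 m₀))
    {R : ∀ n, Ω n → Matrix (κ ⊕ τ) (κ ⊕ τ) ℂ} (hR : ∀ᶠ n in L, ∀ ω ∈ s n, RealSymm (R n ω))
    {μ : Measure (F.SymU (κ ⊕ τ))} [IsProbabilityMeasure μ]
    (h : IsLimitLaw L s (fun n ω => toSU (cay (m n) (R n ω))) μ)
    {K : Matrix τ τ ℂ} (hK : RealSymm K) (h0 : μ (goodS (κ := κ) (toSU (cay m₀ K)))ᶜ = 0)
    {bad : ∀ n, Ω n → Prop} (hbad : Tendsto (fun n => prob (s n) (bad n)) L (𝓝 0))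
    {T : ∀ n, Ω n → Matrix κ κ ℂ}
    (hT : ∀ᶠ n in L, ∀ ω ∈ s n, ¬ bad n ω → IsUnit ((R n ω).toBlocks₂₂ - K).det ∧
      T n ω = closeR (R n ω) K)
    {ν : Measure (F.SymU κ)} [IsProbabilityMeasure ν]
    (hν : IsLimitLaw L s (fun n ω => toSU (cay (m n) (T n ω))) ν) :
    ν = μ.map (closeS (κ := κ) (toSU (cay m₀ K))) := by
  have hX : ∀ F : C(F.SymU (κ ⊕ τ), ℝ), Tendsto (fun n => avg (s n)
      (fun ω => F (toSU (cay (m n) (R n ω))))) L (𝓝 (∫ x, F x ∂μ)) := fun F =>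
    h (BoundedContinuousFunction.mkOfCompact F)
  have hpr : IsProbabilityMeasure (μ.map (closeS (κ := κ) (toSU (cay m₀ K)))) :=
    Measure.isProbabilityMeasure_map (measurable_closeS _).aemeasurable
  refine IsLimitLaw.unique hν ?_
  intro G
  rw [integral_map (measurable_closeS _).aemeasurable
    G.continuous.measurable.aestronglyMeasurable]
  exact transfer (Θ := F.SymU τ) s (fun n ω => toSU (cay (m n) (R n ω)))
    (fun n ω => toSU (cay (m n) (T n ω))) μ hX bad hbad (fun n => toSU (cay (m n) K))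
    (toSU (cay m₀ K)) (tendsto_toSU_cay hm hlim hK) (fun p => closeS p.1 p.2) (goodC κ τ)
    isOpen_goodC continuousOn_closeS h0 (by
      filter_upwards [eventually_im_ne hm hlim, hR, hT] with n hmn hRn hTn ω hω hb hg
      obtain ⟨h1, h2⟩ := hTn ω hω hb
      have hRS := hRn ω hω
      apply Subtype.ext
      rw [h2, coe_toSU (cay_mem_symU hmn (closeR_realSymm hRS hK)), coe_closeS hg,
        coe_toSU (cay_mem_symU hmn hRS), coe_toSU (cay_mem_symU hmn hK)]
      exact cay_closeR hRS.1 hmn hK.1 h1) G.toContinuousMap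
    (G.continuous.measurable.comp (measurable_closeS _))

end Vale.Agent.P156.H167
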