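import Vale.Agent.P156.F.Basic
import Vale.Agent.P156.H574.Closing

/-! P156, block F: closing several channels at once, on symmetric unitary matrices. -/

open Matrix MeasureTheory Topology
open scoped ComplexConjugate
open Vale.Agent.P156.F Vale.Agent.P156.A

namespace Vale.Agent.P156.H167

set_option linter.unusedSectionVars false

variable {κ τ : Type} [Fintype κ] [DecidableEq κ] [Fintype τ] [DecidableEq τ]

/-- block form of the unitarity relation. -/
theorem unitary_blocks {S : Matrix (κ ⊕ τ) (κ ⊕ τ) ℂ} (hS : S ∈ unitaryGroup (κ ⊕ τ) ℂ) :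
    S.toBlocks₁₁ᴴ * S.toBlocks₁₁ + S.toBlocks₂₁ᴴ * S.toBlocks₂₁ = 1 ∧
    S.toBlocks₁₁ᴴ * S.toBlocks₁₂ + S.toBlocks₂₁ᴴ * S.toBlocks₂₂ = 0 ∧
    S.toBlocks₁₂ᴴ * S.toBlocks₁₁ + S.toBlocks₂₂ᴴ * S.toBlocks₂₁ = 0 ∧
    S.toBlocks₁₂ᴴ * S.toBlocks₁₂ + S.toBlocks₂₂ᴴ * S.toBlocks₂₂ = 1 := by
  have h := mem_unitaryGroup_iff'.mp hS
  rw [star_eq_conjTranspose] at h
  have hS' : S = fromBlocks S.toBlocks₁₁ S.toBlocks₁₂ S.toBlocks₂₁ S.toBlocks₂₂ :=
    (fromBlocks_toBlocks S).symm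
  rw [hS', fromBlocks_conjTranspose, fromBlocks_multiply, ← fromBlocks_one] at h
  exact fromBlocks_inj.mp h

theorem closeM_mem {S : Matrix (κ ⊕ τ) (κ ⊕ τ) ℂ} (hS : S ∈ symU (κ ⊕ τ))
    {C : Matrix τ τ ℂ} (hC : C ∈ symU τ) (hU : IsUnit (C - S.toBlocks₂₂).det) :
    closeM S C ∈ symU κ := by
  obtain ⟨u1, u2, u3, u4⟩ := unitary_blocks hS.1
  obtain ⟨h1, h2, h3, h4⟩ := symm_blocks hS.2
  have hCC : Cᴴ * C = 1 := by
    have := mem_unitaryGroup_iff'.mp hC.1
    rwa [star_eq_conjTranspose] at this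
  refine ⟨?_, ?_⟩
  · rw [mem_unitaryGroup_iff', star_eq_conjTranspose]
    set X : Matrix τ κ ℂ := (C - S.toBlocks₂₂)⁻¹ * S.toBlocks₂₁ with hX
    have hcl : closeM S C = S.toBlocks₁₁ + S.toBlocks₁₂ * X := by
      rw [closeM, hX, Matrix.mul_assoc]
    have hCX : S.toBlocks₂₁ + S.toBlocks₂₂ * X = C * X := by
      have e1 : (C - S.toBlocks₂₂) * X = S.toBlocks₂₁ := by
        rw [hX, ← Matrix.mul_assoc, mul_nonsing_inv _ hU, Matrix.one_mul]
      rw [Matrix.sub_mul, sub_eq_iff_eq_add] at e1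
      exact e1.symm
    have e1 : (S.toBlocks₁₁ + S.toBlocks₁₂ * X)ᴴ * (S.toBlocks₁₁ + S.toBlocks₁₂ * X) +
        (S.toBlocks₂₁ + S.toBlocks₂₂ * X)ᴴ * (S.toBlocks₂₁ + S.toBlocks₂₂ * X) =
        (S.toBlocks₁₁ᴴ * S.toBlocks₁₁ + S.toBlocks₂₁ᴴ * S.toBlocks₂₁) +
        (S.toBlocks₁₁ᴴ * S.toBlocks₁₂ + S.toBlocks₂₁ᴴ * S.toBlocks₂₂) * X +
        Xᴴ * (S.toBlocks₁₂ᴴ * S.toBlocks₁₁ + S.toBlocks₂₂ᴴ * S.toBlocks₂₁) +
        Xᴴ * ((S.toBlocks₁₂ᴴ * S.toBlocks₁₂ + S.toBlocks₂₂ᴴ * S.toBlocks₂₂) * X) := by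
      simp only [conjTranspose_add, conjTranspose_mul, Matrix.add_mul, Matrix.mul_add,
        Matrix.mul_assoc]
      abel
    rw [u1, u2, u3, u4, hCX, Matrix.zero_mul, Matrix.mul_zero, Matrix.one_mul, add_zero,
      add_zero, conjTranspose_mul, Matrix.mul_assoc, ← Matrix.mul_assoc Cᴴ, hCC,
      Matrix.one_mul] at e1
    rw [hcl]
    exact add_right_cancel e1
  · rw [closeM, transpose_add, transpose_mul, transpose_mul, transpose_nonsing_inv,
      transpose_sub, h1, h2, h3, h4, hC.2, Matrix.mul_assoc]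

/-- extension of a matrix by the identity on the closed channels. -/
def extM (U : Matrix κ κ ℂ) : Matrix (κ ⊕ τ) (κ ⊕ τ) ℂ := fromBlocks U 0 0 1

theorem extM_mem {U : Matrix κ κ ℂ} (hU : U ∈ unitaryGroup κ ℂ) :
    (extM U : Matrix (κ ⊕ τ) (κ ⊕ τ) ℂ) ∈ unitaryGroup (κ ⊕ τ) ℂ := by
  rw [mem_unitaryGroup_iff'] at hU ⊢
  rw [star_eq_conjTranspose] at hU ⊢
  rw [extM, fromBlocks_conjTranspose, fromBlocks_multiply, ← fromBlocks_one]
  simp [hU]

/-- extension of a unitary matrix by the identity on the closed channels. -/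
def extU (U : unitaryGroup κ ℂ) : unitaryGroup (κ ⊕ τ) ℂ := ⟨extM U.1, extM_mem U.2⟩

theorem extM_conj (U : Matrix κ κ ℂ) (S : Matrix (κ ⊕ τ) (κ ⊕ τ) ℂ) :
    extM U * S * (extM U)ᵀ = fromBlocks (U * S.toBlocks₁₁ * Uᵀ) (U * S.toBlocks₁₂)
      (S.toBlocks₂₁ * Uᵀ) S.toBlocks₂₂ := by
  conv_lhs => rw [← fromBlocks_toBlocks S]
  rw [extM, fromBlocks_transpose, fromBlocks_multiply, fromBlocks_multiply]
  simp

theorem closeM_extM (U : Matrix κ κ ℂ) (S : Matrix (κ ⊕ τ) (κ ⊕ τ) ℂ) (C : Matrix τ τ ℂ) :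
    closeM (extM U * S * (extM U)ᵀ) C = U * closeM S C * Uᵀ := by
  rw [extM_conj, closeM, closeM, toBlocks_fromBlocks₁₁, toBlocks_fromBlocks₁₂,
    toBlocks_fromBlocks₂₁, toBlocks_fromBlocks₂₂, Matrix.mul_add, Matrix.add_mul]
  simp only [Matrix.mul_assoc]

theorem toBlocks₂₂_extM (U : Matrix κ κ ℂ) (S : Matrix (κ ⊕ τ) (κ ⊕ τ) ℂ) :
    (extM U * S * (extM U)ᵀ).toBlocks₂₂ = S.toBlocks₂₂ := by
  rw [extM_conj, toBlocks_fromBlocks₂₂]

/-- determinant of a closed matrix. -/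
theorem det_closeM {S : Matrix (κ ⊕ τ) (κ ⊕ τ) ℂ} (hS : S ∈ unitaryGroup (κ ⊕ τ) ℂ)
    {C : Matrix τ τ ℂ} (hU : IsUnit (C - S.toBlocks₂₂).det) :
    (S.toBlocks₂₂ - C).det * (closeM S C).det = S.det * (1 - S.toBlocks₂₂ᴴ * C).det := by
  have hU' : IsUnit (S.toBlocks₂₂ - C).det := by
    rw [← neg_sub, det_neg]
    exact ((isUnit_one.neg).pow _).mul hU
  have e1 : (fromBlocks S.toBlocks₁₁ S.toBlocks₁₂ S.toBlocks₂₁ (S.toBlocks₂₂ - C)).det =
      (S.toBlocks₂₂ - C).det * (closeM S C).det := by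
    have hinv : Invertible (S.toBlocks₂₂ - C) := invertibleOfIsUnitDet _ hU'
    rw [det_fromBlocks₂₂, invOf_eq_nonsing_inv, closeM, ← neg_sub S.toBlocks₂₂ C]
    congr 2
    have : (-(S.toBlocks₂₂ - C))⁻¹ = -(S.toBlocks₂₂ - C)⁻¹ := by
      apply inv_eq_left_inv
      rw [neg_mul_neg, nonsing_inv_mul _ hU']
    rw [this, Matrix.mul_neg, Matrix.neg_mul, sub_eq_add_neg]
  have e2 : fromBlocks S.toBlocks₁₁ S.toBlocks₁₂ S.toBlocks₂₁ (S.toBlocks₂₂ - C) =
      S * (1 - Sᴴ * fromBlocks 0 0 0 C) := by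
    have hSS : S * Sᴴ = 1 := by
      have := mem_unitaryGroup_iff.mp hS
      rwa [star_eq_conjTranspose] at this
    rw [Matrix.mul_sub, Matrix.mul_one, ← Matrix.mul_assoc, hSS, Matrix.one_mul]
    conv_rhs => rw [← fromBlocks_toBlocks S]
    ext i j
    rcases i with i | i <;> rcases j with j | j <;> simp
  have e3 : (1 - Sᴴ * fromBlocks 0 0 0 C : Matrix (κ ⊕ τ) (κ ⊕ τ) ℂ) =
      fromBlocks 1 (-(S.toBlocks₂₁ᴴ * C)) 0 (1 - S.toBlocks₂₂ᴴ * C) := by
    conv_lhs => rw [← fromBlocks_toBlocks S]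
    rw [fromBlocks_conjTranspose, fromBlocks_multiply, ← fromBlocks_one, sub_eq_add_neg,
      fromBlocks_neg, fromBlocks_add]
    simp [sub_eq_add_neg]
  rw [← e1, e2, det_mul, e3, det_fromBlocks_zero₂₁, det_one, one_mul]

/-! ### The closing map on the space of symmetric unitary matrices -/

open Classical in
/-- Closing the channels `τ` with `C` (junk value `1` if the closing is singular). -/
noncomputable def closeS (C : F.SymU τ) (S : F.SymU (κ ⊕ τ)) : F.SymU κ :=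
  if h : IsUnit (C.1 - S.1.toBlocks₂₂).det then ⟨closeM S.1 C.1, closeM_mem S.2 C.2 h⟩
  else ⟨1, one_mem _, transpose_one⟩

theorem coe_closeS {C : F.SymU τ} {S : F.SymU (κ ⊕ τ)} (h : IsUnit (C.1 - S.1.toBlocks₂₂).det) :
    (closeS C S : Matrix κ κ ℂ) = closeM S.1 C.1 := by
  rw [closeS, dif_pos h]

/-- the set of nonsingular pairs. -/
def goodC (κ τ : Type) [Fintype κ] [DecidableEq κ] [Fintype τ] [DecidableEq τ] :
    Set (F.SymU τ × F.SymU (κ ⊕ τ)) :=
  {p | IsUnit (p.1.1 - p.2.1.toBlocks₂₂).det}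

theorem continuous_block₂₂ : Continuous (fun p : F.SymU τ × F.SymU (κ ⊕ τ) =>
    p.1.1 - p.2.1.toBlocks₂₂) := by
  refine continuous_matrix fun i j => ?_
  have h1 : Continuous (fun p : F.SymU τ × F.SymU (κ ⊕ τ) => p.1.1 i j) :=
    (continuous_subtype_val.comp continuous_fst).matrix_elem i j
  have h2 : Continuous (fun p : F.SymU τ × F.SymU (κ ⊕ τ) => p.2.1 (Sum.inr i) (Sum.inr j)) :=
    (continuous_subtype_val.comp continuous_snd).matrix_elem _ _
  exact h1.sub h2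

theorem isOpen_goodC : IsOpen (goodC κ τ) := by
  have h : goodC κ τ = (fun p : F.SymU τ × F.SymU (κ ⊕ τ) =>
      (p.1.1 - p.2.1.toBlocks₂₂).det) ⁻¹' {0}ᶜ := by
    ext p
    simp [goodC, isUnit_iff_ne_zero]
  rw [h]
  exact isOpen_compl_singleton.preimage continuous_block₂₂.matrix_det

theorem continuousOn_closeS : ContinuousOn (fun p : F.SymU τ × F.SymU (κ ⊕ τ) => closeS p.1 p.2)
    (goodC κ τ) := by
  rw [continuousOn_iff_continuous_domRestrict]
  have h : ((goodC κ τ).domRestrict (fun p : F.SymU τ × F.SymU (κ ⊕ τ) => closeS p.1 p.2)) =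
      fun p => ⟨closeM p.1.2.1 p.1.1.1, closeM_mem p.1.2.2 p.1.1.2 p.2⟩ := by
    ext1 p
    apply Subtype.ext
    exact coe_closeS p.2
  rw [h]
  refine Continuous.subtype_mk ?_ _
  have hval : Continuous (fun p : goodC κ τ => p.1.2.1) :=
    continuous_subtype_val.comp (continuous_snd.comp continuous_subtype_val)
  have hinv : Continuous (fun p : goodC κ τ => (p.1.1.1 - p.1.2.1.toBlocks₂₂)⁻¹) := by
    have hc : Continuous (fun p : goodC κ τ => p.1.1.1 - p.1.2.1.toBlocks₂₂) :=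
      continuous_block₂₂.comp continuous_subtype_val
    simp only [Matrix.inv_def, Ring.inverse_eq_inv]
    refine (Continuous.smul (M := ℂ) (X := Matrix τ τ ℂ) ?_ hc.matrix_adjugate)
    refine hc.matrix_det.inv₀ fun p => ?_
    exact isUnit_iff_ne_zero.mp p.2
  have h11 : Continuous (fun p : goodC κ τ => p.1.2.1.toBlocks₁₁) :=
    continuous_matrix fun i j => hval.matrix_elem _ _
  have h12 : Continuous (fun p : goodC κ τ => p.1.2.1.toBlocks₁₂) :=
    continuous_matrix fun i j => hval.matrix_elem _ _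
  have h21 : Continuous (fun p : goodC κ τ => p.1.2.1.toBlocks₂₁) :=
    continuous_matrix fun i j => hval.matrix_elem _ _
  exact h11.add ((h12.matrix_mul hinv).matrix_mul h21)

/-- the nonsingular set for a fixed closing. -/
def goodS (C : F.SymU τ) : Set (F.SymU (κ ⊕ τ)) := {S | IsUnit (C.1 - S.1.toBlocks₂₂).det}

theorem isOpen_goodS (C : F.SymU τ) : IsOpen (goodS (κ := κ) C) :=
  (isOpen_goodC (κ := κ) (τ := τ)).preimage (by fun_prop : Continuous fun S : F.SymU (κ ⊕ τ) => (C, S))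

theorem continuousOn_closeS' (C : F.SymU τ) : ContinuousOn (closeS (κ := κ) C) (goodS C) :=
  continuousOn_closeS.comp
    (by fun_prop : Continuous fun S : F.SymU (κ ⊕ τ) => (C, S)).continuousOn (fun _ h => h)

theorem measurable_closeS (C : F.SymU τ) : Measurable (closeS (κ := κ) C) := by
  classical
  have h := (continuousOn_closeS' (κ := κ) C).measurable_piecewise
    (g := fun _ => ⟨1, one_mem _, transpose_one⟩) continuousOn_const (isOpen_goodS C).measurableSet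
  convert h using 1
  ext1 S
  by_cases hS : S ∈ goodS (κ := κ) C
  · rw [Set.piecewise_eq_of_mem _ _ _ hS]
  · rw [Set.piecewise_eq_of_notMem _ _ _ hS, closeS, dif_neg]
    exact fun h => hS h

theorem closeS_extU (C : F.SymU τ) {S : F.SymU (κ ⊕ τ)} (hS : S ∈ goodS (κ := κ) C) (U : unitaryGroup κ ℂ) :
    closeS C (extU (τ := τ) U • S) = U • closeS C S := by
  have h1 : (extU (τ := τ) U • S : F.SymU (κ ⊕ τ)).1.toBlocks₂₂ = S.1.toBlocks₂₂ := by
    rw [coe_smul]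
    exact toBlocks₂₂_extM _ _
  apply Subtype.ext
  rw [coe_closeS (by rw [h1]; exact hS), coe_smul, coe_smul, coe_closeS hS]
  exact closeM_extM _ _ _

/-- invariance passes to the closed law. -/
theorem InvBy.closeS {μ : Measure (F.SymU (κ ⊕ τ))} {C : F.SymU τ} (h0 : μ (goodS (κ := κ) C)ᶜ = 0)
    {U : unitaryGroup κ ℂ} (hU : InvBy μ (extU (τ := τ) U)) :
    InvBy (μ.map (H167.closeS (κ := κ) C)) U := by
  unfold InvBy at *
  rw [Measure.map_map (measurable_smul U) (measurable_closeS C)]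
  have h1 : (fun S : F.SymU κ => U • S) ∘ H167.closeS (κ := κ) C =ᵐ[μ]
      (H167.closeS (κ := κ) C) ∘ (fun S : F.SymU (κ ⊕ τ) => extU (τ := τ) U • S) := by
    have h2 : ∀ᵐ S ∂μ, S ∈ goodS (κ := κ) C := h0
    filter_upwards [h2] with S hS
    exact (closeS_extU C hS U).symm
  rw [Measure.map_congr h1, ← Measure.map_map (measurable_closeS C) (measurable_smul _), hU]

end Vale.Agent.P156.H167
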