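import Vale.Agent.P156.H167.CloseM

/-! P156, block F: for laws invariant under the diagonal unitary matrices of determinant one, the
closings are almost surely nonsingular, and the closed laws are invariant. -/

open Matrix MeasureTheory Topology Polynomial
open scoped ComplexConjugate
open Vale.Agent.P156.F Vale.Agent.P156.A

namespace Vale.Agent.P156.H167

set_option linter.unusedSectionVars false

variable {κ τ : Type} [Fintype κ] [DecidableEq κ] [Fintype τ] [DecidableEq τ]

/-- the zeros of `z ↦ det (C - z X)`. -/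
theorem card_zeros_le (C X : Matrix τ τ ℂ) (hC : C.det ≠ 0) (Z : Finset ℂ)
    (hZ : ∀ z ∈ Z, (C - z • X).det = 0) : Z.card ≤ Fintype.card τ := by
  classical
  set P : ℂ[X] := ((Polynomial.X : ℂ[X]) • (-X).map Polynomial.C + C.map Polynomial.C).det with hP
  have heval : ∀ z : ℂ, P.eval z = (C - z • X).det := by
    intro z
    rw [hP, ← Polynomial.coe_evalRingHom, RingHom.map_det]
    congr 1
    ext i j
    simp [Matrix.map_apply, RingHom.mapMatrix_apply]
    ring
  have hP0 : P ≠ 0 := by
    intro h0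
    apply hC
    have := heval 0
    rw [h0, Polynomial.eval_zero, zero_smul, sub_zero] at this
    exact this.symm
  have h1 : Z.card ≤ P.natDegree := by
    apply Polynomial.card_le_degree_of_subset_roots
    intro z hz
    rw [Polynomial.mem_roots hP0, Polynomial.IsRoot.def, heval z]
    exact hZ z hz
  exact h1.trans (Polynomial.natDegree_det_X_add_C_le (-X) C)

/-- the phases used below -/
noncomputable def wj (j : ℕ) : ℂ := Complex.exp (((1 / ((j : ℝ) + 1) : ℝ) : ℂ) * Complex.I)

theorem norm_wj (j : ℕ) : ‖wj j‖ = 1 := Complex.norm_exp_ofReal_mul_I _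

theorem wj_sq_injective : Function.Injective (fun j => wj j ^ 2) := by
  intro i j hij
  simp only [wj, ← Complex.exp_nat_mul] at hij
  have hb : ∀ j : ℕ, 0 < 1 / ((j : ℝ) + 1) ∧ 1 / ((j : ℝ) + 1) ≤ 1 := by
    intro j
    have h0 : (0 : ℝ) ≤ j := Nat.cast_nonneg j
    refine ⟨by positivity, ?_⟩
    rw [div_le_one (by positivity)]
    linarith
  have him : ∀ j : ℕ, ((2 : ℕ) * (((1 / ((j : ℝ) + 1) : ℝ) : ℂ) * Complex.I) : ℂ).im =
      2 * (1 / ((j : ℝ) + 1)) := by
    intro j
    rw [Complex.mul_im, Complex.re_ofReal_mul, Complex.im_ofReal_mul, Complex.I_re, Complex.I_im]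
    simp
  have hpi := Real.pi_gt_three
  have h := Complex.exp_inj_of_neg_pi_lt_of_le_pi (x := (2 : ℕ) * (((1 / ((i : ℝ) + 1) : ℝ) : ℂ) * Complex.I))
    (y := (2 : ℕ) * (((1 / ((j : ℝ) + 1) : ℝ) : ℂ) * Complex.I))
    (by rw [him]; linarith [hb i]) (by rw [him]; linarith [hb i])
    (by rw [him]; linarith [hb j]) (by rw [him]; linarith [hb j]) hij
  have h2 := congrArg Complex.im h
  rw [him, him] at h2
  have h3 : ((i : ℝ) + 1) = (j : ℝ) + 1 := by
    have h4 : 1 / ((i : ℝ) + 1) = 1 / ((j : ℝ) + 1) := by linarith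
    rw [one_div, one_div] at h4
    exact inv_injective h4
  have h5 : (i : ℝ) = j := by linarith
  exact_mod_cast h5

/-- a diagonal unitary matrix of determinant one which is `w` on the channels `τ` -/
noncomputable def dW (k₀ : κ) (w : ℂ) : κ ⊕ τ → ℂ :=
  Sum.elim (fun k => if k = k₀ then (w⁻¹) ^ Fintype.card τ else 1) (fun _ => w)

theorem norm_dW (k₀ : κ) {w : ℂ} (hw : ‖w‖ = 1) (i : κ ⊕ τ) : ‖dW k₀ w i‖ = 1 := by
  rcases i with i | i
  · simp only [dW, Sum.elim_inl]
    split_ifs
    · rw [norm_pow, norm_inv, hw, inv_one, one_pow]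
    · exact norm_one
  · simpa [dW] using hw

theorem prod_dW (k₀ : κ) {w : ℂ} (hw : ‖w‖ = 1) : ∏ i : κ ⊕ τ, dW k₀ w i = 1 := by
  have hw0 : w ≠ 0 := by
    intro h
    rw [h, norm_zero] at hw
    exact zero_ne_one hw
  rw [Fintype.prod_sum_type]
  simp only [dW, Sum.elim_inl, Sum.elim_inr, Finset.prod_ite_eq', Finset.mem_univ, if_true,
    Finset.prod_const, Finset.card_univ]
  rw [← mul_pow, inv_mul_cancel₀ hw0, one_pow]

theorem diagonal_mem_unitaryGroup {ι : Type} [Fintype ι] [DecidableEq ι] {f : ι → ℂ}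
    (hf : ∀ i, ‖f i‖ = 1) : Matrix.diagonal f ∈ unitaryGroup ι ℂ := by
  rw [mem_unitaryGroup_iff, star_eq_conjTranspose, diagonal_conjTranspose,
    diagonal_mul_diagonal, ← diagonal_one]
  congr 1
  funext i
  rw [Pi.star_apply, Complex.star_def, Complex.mul_conj, Complex.normSq_eq_norm_sq, hf i]
  simp

/-- Almost sure nonsingularity of closings. -/
theorem measure_goodS_compl [Nonempty κ] {μ : Measure (F.SymU (κ ⊕ τ))} [IsFiniteMeasure μ]
    (hD : DInv μ) (C : F.SymU τ) : μ (goodS (κ := κ) C)ᶜ = 0 := by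
  classical
  obtain ⟨k₀⟩ := ‹Nonempty κ›
  set B : ℕ → Set (F.SymU (κ ⊕ τ)) := fun j => {S | (C.1 - (wj j ^ 2) • S.1.toBlocks₂₂).det = 0}
    with hB
  have hmeas : ∀ j, MeasurableSet (B j) := by
    intro j
    have hc : Continuous (fun S : F.SymU (κ ⊕ τ) => C.1 - (wj j ^ 2) • S.1.toBlocks₂₂) := by
      refine continuous_matrix fun a b => ?_
      have h2 : Continuous (fun S : F.SymU (κ ⊕ τ) => S.1 (Sum.inr a) (Sum.inr b)) :=
        continuous_subtype_val.matrix_elem _ _
      exact continuous_const.sub (continuous_const.mul h2)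
    exact (isClosed_singleton.preimage hc.matrix_det).measurableSet
  have hCdet : C.1.det ≠ 0 := by
    have h := congrArg Matrix.det (mem_unitaryGroup_iff.mp C.2.1)
    rw [det_mul, det_one] at h
    exact left_ne_zero_of_mul_eq_one h
  -- all the sets have the same measure
  have hEq : ∀ j, μ (B j) = μ (goodS (κ := κ) C)ᶜ := by
    intro j
    set D : unitaryGroup (κ ⊕ τ) ℂ := ⟨Matrix.diagonal (dW k₀ (wj j)),
      diagonal_mem_unitaryGroup (norm_dW k₀ (norm_wj j))⟩ with hDdef
    have hinv : InvBy μ D := hD D (isDiag_diagonal _) (by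
      rw [hDdef, det_diagonal, prod_dW k₀ (norm_wj j)])
    have hgm : MeasurableSet ((goodS (κ := κ) C)ᶜ) := (isOpen_goodS C).measurableSet.compl
    conv_rhs => rw [← hinv]
    rw [Measure.map_apply (measurable_smul D) hgm]
    congr 1
    ext S
    have e1 : (D • S : F.SymU (κ ⊕ τ)).1.toBlocks₂₂ = (wj j ^ 2) • S.1.toBlocks₂₂ := by
      ext a b
      rw [toBlocks₂₂, of_apply, F.coe_smul, hDdef]
      simp only [diagonal_transpose, mul_diagonal, diagonal_mul]
      simp [dW, toBlocks₂₂]
      ring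
    simp only [hB, goodS, Set.mem_preimage, Set.mem_compl_iff, Set.mem_ofPred_eq, e1,
      isUnit_iff_ne_zero, not_not]
  -- counting
  have hcount : ∀ (N : ℕ) (S : F.SymU (κ ⊕ τ)),
      ∑ j ∈ Finset.range N, (B j).indicator (fun _ => (1 : ℝ)) S ≤ Fintype.card τ := by
    intro N S
    have h1 : ∑ j ∈ Finset.range N, (B j).indicator (fun _ => (1 : ℝ)) S =
        (((Finset.range N).filter (fun j => S ∈ B j)).card : ℝ) := by
      rw [Finset.card_filter]
      push_cast
      refine Finset.sum_congr rfl fun j _ => ?_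
      rw [Set.indicator_apply]
    rw [h1]
    have h2 : ((Finset.range N).filter (fun j => S ∈ B j)).card ≤ Fintype.card τ := by
      rw [← Finset.card_image_of_injective _ wj_sq_injective]
      refine card_zeros_le C.1 S.1.toBlocks₂₂ hCdet _ ?_
      intro z hz
      rw [Finset.mem_image] at hz
      obtain ⟨j, hj, rfl⟩ := hz
      exact (Finset.mem_filter.mp hj).2
    exact_mod_cast h2
  have hN : ∀ N : ℕ, (N : ℝ) * μ.real (goodS (κ := κ) C)ᶜ ≤ Fintype.card τ * μ.real Set.univ := by
    intro N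
    have h1 : ∫ S, ∑ j ∈ Finset.range N, (B j).indicator (fun _ => (1 : ℝ)) S ∂μ =
        (N : ℝ) * μ.real (goodS (κ := κ) C)ᶜ := by
      rw [integral_finsetSum]
      · have : ∀ j ∈ Finset.range N, ∫ S, (B j).indicator (fun _ => (1 : ℝ)) S ∂μ =
            μ.real (goodS (κ := κ) C)ᶜ := by
          intro j _
          rw [integral_indicator_const _ (hmeas j), smul_eq_mul, mul_one, Measure.real, hEq j]
          rfl
        rw [Finset.sum_congr rfl this, Finset.sum_const, Finset.card_range, nsmul_eq_mul]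
      · intro j _
        exact (integrable_const (1 : ℝ)).indicator (hmeas j)
    rw [← h1]
    have h2 : ∫ _ : F.SymU (κ ⊕ τ), (Fintype.card τ : ℝ) ∂μ =
        Fintype.card τ * μ.real Set.univ := by
      rw [integral_const, smul_eq_mul, mul_comm]
    rw [← h2]
    refine integral_mono ?_ (integrable_const _) (hcount N)
    exact integrable_finsetSum _ fun j _ => (integrable_const (1 : ℝ)).indicator (hmeas j)
  have h0 : μ.real (goodS (κ := κ) C)ᶜ = 0 := by
    by_contra hne
    have hpos : 0 < μ.real (goodS (κ := κ) C)ᶜ := lt_of_le_of_ne measureReal_nonneg (Ne.symm hne)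
    obtain ⟨N, hN'⟩ := exists_nat_gt (Fintype.card τ * μ.real Set.univ / μ.real (goodS (κ := κ) C)ᶜ)
    rw [div_lt_iff₀ hpos] at hN'
    exact absurd (hN N) (not_le.mpr hN')
  rwa [measureReal_eq_zero_iff] at h0

/-- `O`-invariance passes to closed laws. -/
theorem OInv.closeS {μ : Measure (F.SymU (κ ⊕ τ))} {C : F.SymU τ}
    (h0 : μ (goodS (κ := κ) C)ᶜ = 0) (hO : ∀ U : unitaryGroup κ ℂ, IsReal U →
      InvBy μ (extU (τ := τ) U)) : OInv (μ.map (H167.closeS (κ := κ) C)) :=
  fun U hU => InvBy.closeS h0 (hO U hU)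

theorem isReal_extU {U : unitaryGroup κ ℂ} (hU : IsReal U) : IsReal (extU (τ := τ) U) := by
  intro i j
  rcases i with i | i <;> rcases j with j | j
  · exact hU i j
  · rfl
  · rfl
  · change ((1 : Matrix τ τ ℂ) i j).im = 0
    rw [Matrix.one_apply]
    split_ifs <;> simp

theorem isDiag_extU {U : unitaryGroup κ ℂ} (hU : U.1.IsDiag) :
    (extU (τ := τ) U).1.IsDiag := by
  intro i j hij
  rcases i with i | i <;> rcases j with j | j
  · exact hU (fun h => hij (by rw [h]))
  · rfl
  · rfl
  · change (1 : Matrix τ τ ℂ) i j = 0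
    exact Matrix.one_apply_ne (fun h => hij (by rw [h]))

theorem det_extU (U : unitaryGroup κ ℂ) : (extU (τ := τ) U).1.det = U.1.det := by
  change (fromBlocks U.1 0 0 1).det = _
  rw [det_fromBlocks_zero₂₁, det_one, mul_one]

/-- `D`-invariance passes to closed laws. -/
theorem DInv.closeS {μ : Measure (F.SymU (κ ⊕ τ))} {C : F.SymU τ}
    (h0 : μ (goodS (κ := κ) C)ᶜ = 0) (hD : DInv μ) : DInv (μ.map (H167.closeS (κ := κ) C)) :=
  fun U hU hdet => InvBy.closeS h0 (hD _ (isDiag_extU hU) (by rw [det_extU, hdet]))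

end Vale.Agent.P156.H167
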