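import Vale.Agent.P156.H167.CloseLaw

/-! P156, block F: the chain of laws `Λ_{K+1} → H_K → Λ_K` forces the moments of the determinant to
vanish. -/

open Matrix MeasureTheory Filter Topology
open scoped ComplexConjugate

namespace Vale.Agent.P156.H167

open Vale.Agent.P156 Vale.Agent.P156.F Vale.Agent.P156.A Vale.Agent.P156.Lim

set_option linter.unusedSectionVars false

/-- An infinite product of contractions. -/
theorem moments_zero {M : ℕ → ℝ} (h0 : ∀ K, 0 ≤ M K) (h1 : ∀ K, M K ≤ 1) {K₁ : ℕ}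
    (hw : ∀ K ≥ K₁, M K ≤ M (K + 1)) {c : ℝ} (hc : 0 < c) {K₀ : ℕ}
    (hs : ∀ K ≥ K₀, M K ≤ (1 - c / ((K : ℝ) + 1)) * M (K + 1)) : ∀ K ≥ K₁, M K = 0 := by
  set S : ℕ → ℝ := fun n => ∑ i ∈ Finset.range n, (1 / ((i : ℝ) + 1)) with hS
  have hdiv : Tendsto S atTop atTop := Real.tendsto_sum_range_one_div_nat_succ_atTop
  -- large `K`
  have hlarge : ∀ K ≥ K₀, M K = 0 := by
    intro K hK
    have hj : ∀ j : ℕ, M K ≤ Real.exp (-(c * (S (K + j) - S K))) * M (K + j) := by
      intro j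
      induction j with
      | zero => simp
      | succ j ih =>
        refine ih.trans ?_
        have h2 := hs (K + j) (by omega)
        have h3 : (1 - c / (((K + j : ℕ) : ℝ) + 1)) ≤ Real.exp (-(c / (((K + j : ℕ) : ℝ) + 1))) := by
          have := Real.add_one_le_exp (-(c / (((K + j : ℕ) : ℝ) + 1)))
          linarith
        have h4 : M (K + j) ≤ Real.exp (-(c / (((K + j : ℕ) : ℝ) + 1))) * M (K + j + 1) :=
          h2.trans (mul_le_mul_of_nonneg_right h3 (h0 _))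
        have h5 : S (K + (j + 1)) = S (K + j) + 1 / (((K + j : ℕ) : ℝ) + 1) := by
          rw [← add_assoc, hS]
          simp only
          rw [Finset.sum_range_succ]
        have h6 : Real.exp (-(c * (S (K + (j + 1)) - S K))) =
            Real.exp (-(c * (S (K + j) - S K))) * Real.exp (-(c / (((K + j : ℕ) : ℝ) + 1))) := by
          rw [← Real.exp_add, h5]
          congr 1
          ring
        rw [h6, mul_assoc]
        exact mul_le_mul_of_nonneg_left h4 (Real.exp_nonneg _)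
    have hlim : Tendsto (fun j : ℕ => Real.exp (-(c * (S (K + j) - S K)))) atTop (𝓝 0) := by
      apply Real.tendsto_exp_atBot.comp
      rw [tendsto_neg_atBot_iff]
      apply Tendsto.const_mul_atTop hc
      apply tendsto_atTop_add_const_right
      exact hdiv.comp (tendsto_atTop_mono (fun j => Nat.le_add_left j K) tendsto_id)
    refine le_antisymm ?_ (h0 K)
    refine ge_of_tendsto' hlim fun j => (hj j).trans ?_
    exact mul_le_of_le_one_right (Real.exp_nonneg _) (h1 _)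
  -- small `K`
  intro K hK
  have hmono : ∀ j : ℕ, M K ≤ M (K + j) := by
    intro j
    induction j with
    | zero => exact le_rfl
    | succ j ih => exact ih.trans (hw (K + j) (by omega))
  have h2 := hmono K₀
  rw [hlarge (K + K₀) (by omega)] at h2
  exact le_antisymm h2 (h0 K)

section translate

variable {ι : Type} [Fintype ι] [DecidableEq ι]

/-- translates of `SU`-invariant laws are `SU`-invariant. -/
theorem SUInv.translate {μ : Measure (F.SymU ι)} (h : SUInv μ) (V : unitaryGroup ι ℂ) :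
    SUInv (μ.map (fun S => V • S)) := by
  intro U hU
  unfold InvBy
  rw [Measure.map_map (F.measurable_smul _) (F.measurable_smul _)]
  have h1 : (fun S : F.SymU ι => U • S) ∘ (fun S => V • S) =
      (fun S => V • S) ∘ (fun S => (V⁻¹ * U * V) • S) := by
    funext S
    simp only [Function.comp, ← mul_smul]
    congr 1
    group
  have h2 : (V⁻¹ * U * V).1.det = 1 := by
    have h3 : (V⁻¹ * U * V).1 = (V⁻¹).1 * U.1 * V.1 := rfl
    have h4 : (V⁻¹).1 * V.1 = 1 := by
      have : (V⁻¹).1 * V.1 = (V⁻¹ * V).1 := rfl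
      rw [this, inv_mul_cancel]
      rfl
    rw [h3, det_mul, det_mul, hU, mul_one, ← det_mul, h4, det_one]
  rw [h1, ← Measure.map_map (F.measurable_smul _) (F.measurable_smul _), h _ h2]

theorem norm_moment_translate (μ : Measure (F.SymU ι)) (V : unitaryGroup ι ℂ) (k : ℕ) :
    ‖∫ S, S.1.det ^ k ∂(μ.map (fun S => V • S))‖ = ‖∫ S, S.1.det ^ k ∂μ‖ := by
  have hk : Continuous (fun S : F.SymU ι => S.1.det ^ k) := continuous_det.pow k
  rw [integral_map (F.measurable_smul V).aemeasurable hk.measurable.aestronglyMeasurable]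
  have h1 : ∀ S : F.SymU ι, (V • S : F.SymU ι).1.det ^ k = (V.1.det ^ 2) ^ k * S.1.det ^ k := by
    intro S
    rw [det_smul_unitary, mul_pow]
  simp only [h1]
  rw [integral_const_mul, norm_mul, norm_pow, norm_pow, norm_det_unitary]
  simp

theorem norm_moment_le_one (μ : Measure (F.SymU ι)) [IsProbabilityMeasure μ] (k : ℕ) :
    ‖∫ S, S.1.det ^ k ∂μ‖ ≤ 1 := by
  refine (norm_integral_le_integral_norm _).trans ?_
  simp [norm_det]

end translate

/-- One loop of the chain. -/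
theorem loop_DInv {κ τ : Type} [Fintype κ] [DecidableEq κ] [Fintype τ] [DecidableEq τ]
    [Nonempty κ] {H : Measure (F.SymU (κ ⊕ τ))} [IsProbabilityMeasure H] (hO : OInv H)
    (hD : DInv H) (V : unitaryGroup (κ ⊕ τ) ℂ) (C : F.SymU τ) {Λ : Measure (F.SymU κ)}
    (hΛ : Λ = (H.map (fun S => V • S)).map (closeS C)) :
    SUInv (H.map (fun S => V • S)) ∧ DInv Λ ∧
      ∀ k : ℕ, ‖∫ S, S.1.det ^ k ∂Λ‖ ≤ ‖∫ S, S.1.det ^ k ∂H‖ := by
  have h1 : SUInv (H.map (fun S => V • S)) := SUInv.translate (suInv_of hO hD) V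
  have hp : IsProbabilityMeasure (H.map (fun S => V • S)) :=
    Measure.isProbabilityMeasure_map (F.measurable_smul V).aemeasurable
  refine ⟨h1, ?_, fun k => ?_⟩
  · rw [hΛ]
    exact DInv.closeS (measure_goodS_compl (SUInv.dInv h1) C) (SUInv.dInv h1)
  · rw [hΛ]
    refine (norm_moment_closeS_le h1 C k).trans ?_
    rw [norm_moment_translate]

/-- The strict contraction (L1) as a proposition. -/
def StrictL1 : Prop := ∀ k : ℕ, 1 ≤ k → ∃ c : ℝ, 0 < c ∧ ∃ t₀ : ℕ, ∀ t ≥ t₀,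
  ∀ (μ : Measure (F.SymU (Fin (t + 1)))) [IsProbabilityMeasure μ], OInv μ → DInv μ →
    ‖∫ S, S.1.det ^ k ∂(μ.map (clos 1))‖ ≤ (1 - c / ((t : ℝ) + 1)) * ‖∫ S, S.1.det ^ k ∂μ‖

/-- (L3) as a proposition. -/
def FullL3 : Prop := ∀ (ι : Type) [Fintype ι] [DecidableEq ι] (μ : Measure (F.SymU ι))
  [IsProbabilityMeasure μ], SUInv μ → (∀ k : ℕ, 1 ≤ k → ∫ S, S.1.det ^ k ∂μ = 0) → UInv μ

/-- The chain. -/
theorem chain_core (hL1 : StrictL1) (hL3 : FullL3) {d : ℕ} (hd : 3 ≤ d)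
    (Λ : ∀ K, Measure (F.SymU (Fin K × Fin d))) (hΛp : ∀ K, IsProbabilityMeasure (Λ K))
    (hO : ∀ K ≥ 2, OInv (Λ K)) (H : ∀ K, Measure (F.SymU ((Fin K × Fin d) ⊕ Fin 2)))
    (hHp : ∀ K, IsProbabilityMeasure (H K)) (hHO : ∀ K ≥ 2, OInv (H K))
    (hHD : ∀ K ≥ 2, DInv (H K)) (V : ∀ K, unitaryGroup ((Fin K × Fin d) ⊕ Fin 2) ℂ)
    (C : F.SymU (Fin 2)) (hclose : ∀ K ≥ 2, Λ K = ((H K).map (fun S => V K • S)).map (closeS C))
    (hcomp : ∀ K ≥ 2, OInv (Λ (K + 1)) → DInv (Λ (K + 1)) → ∀ {t : ℕ}, (K + 1) * d = t + 1 →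
      ∀ {ρ : ℕ → ℝ}, (∀ (ν : Measure (F.SymU (Fin (t + 1)))) [IsProbabilityMeasure ν], OInv ν →
        DInv ν → ∀ k : ℕ, ‖∫ S, S.1.det ^ k ∂(ν.map (clos 1))‖ ≤ ρ k * ‖∫ S, S.1.det ^ k ∂ν‖) →
        ∀ k : ℕ, ‖∫ S, S.1.det ^ k ∂(H K)‖ ≤ ρ k * ‖∫ S, S.1.det ^ k ∂(Λ (K + 1))‖) :
    ∀ K ≥ 2, UInv (Λ K) := by
  have hne : ∀ K ≥ 2, Nonempty (Fin K × Fin d) := fun K hK =>
    ⟨(⟨0, by omega⟩, ⟨0, by omega⟩)⟩
  have hDΛ : ∀ K ≥ 2, DInv (Λ K) := by
    intro K hK
    have := hne K hK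
    have := hHp K
    exact (loop_DInv (hHO K hK) (hHD K hK) (V K) C (hclose K hK)).2.1
  have hstep : ∀ K ≥ 2, ∀ k : ℕ, ‖∫ S, S.1.det ^ k ∂(Λ K)‖ ≤ ‖∫ S, S.1.det ^ k ∂(H K)‖ := by
    intro K hK
    have := hne K hK
    have := hHp K
    exact (loop_DInv (hHO K hK) (hHD K hK) (V K) C (hclose K hK)).2.2
  intro K hK
  have hpK := hΛp K
  refine hL3 _ (Λ K) (suInv_of (hO K hK) (hDΛ K hK)) fun k hk => ?_
  rw [← norm_eq_zero]
  obtain ⟨c, hc, t₀, hct⟩ := hL1 k hk
  have hd0 : (0 : ℝ) < d := by exact_mod_cast (by omega : 0 < d)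
  refine moments_zero (M := fun K => ‖∫ S, S.1.det ^ k ∂(Λ K)‖) (fun K => norm_nonneg _)
    (fun K => by have := hΛp K; exact norm_moment_le_one _ k) (K₁ := 2) ?_
    (c := c / d) (by positivity) (K₀ := t₀ + 2) ?_ K hK
  · intro K hK
    refine (hstep K hK k).trans ?_
    have hK1 : 0 < (K + 1) * d := by positivity
    have h1 := hcomp K hK (hO _ (by omega)) (hDΛ _ (by omega)) (t := (K + 1) * d - 1) (by omega)
      (ρ := fun _ => 1) (fun ν _ hOν hDν k => by
        rw [one_mul]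
        refine norm_moment_clos_le ?_ (suInv_of hOν hDν) norm_one k
        have : 3 * 3 ≤ (K + 1) * d := Nat.mul_le_mul (by omega) hd
        omega) k
    simpa using h1
  · intro K hK
    refine (hstep K (by omega) k).trans ?_
    have hK9 : (K + 1) * 3 ≤ (K + 1) * d := Nat.mul_le_mul le_rfl hd
    have ht : (K + 1) * d = ((K + 1) * d - 1) + 1 := by omega
    have hcast : (((((K + 1) * d - 1 : ℕ) : ℝ)) + 1) = ((K : ℝ) + 1) * d := by
      have h2 : ((((K + 1) * d - 1 : ℕ) + 1 : ℕ) : ℝ) = (((K + 1) * d : ℕ) : ℝ) := by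
        rw [← ht]
      push_cast at h2
      exact h2
    have h1 := hcomp K (by omega) (hO _ (by omega)) (hDΛ _ (by omega)) (t := (K + 1) * d - 1) ht
      (ρ := fun k' => if k' = k then 1 - c / (((K : ℝ) + 1) * d) else 1)
      (fun ν _ hOν hDν k' => by
        by_cases hkk : k' = k
        · rw [if_pos hkk, hkk, ← hcast]
          exact hct _ (by omega) ν hOν hDν
        · rw [if_neg hkk, one_mul]
          exact norm_moment_clos_le (by omega) (suInv_of hOν hDν) norm_one k') k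
    simp only [if_true] at h1
    have h3 : c / d / ((K : ℝ) + 1) = c / (((K : ℝ) + 1) * d) := by
      field_simp
    rw [h3]
    exact h1

end Vale.Agent.P156.H167
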