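import Vale.Agent.P156.H167.CloseN
import Vale.Agent.P156.F.Diag

/-! P156, block F: for an `SU`-invariant law the determinant is independent of the closed channels;
the moments of the determinant do not increase under closings. -/

open Matrix MeasureTheory Topology
open scoped ComplexConjugate
open Vale.Agent.P156.F Vale.Agent.P156.A

namespace Vale.Agent.P156.H167

set_option linter.unusedSectionVars false

section general

variable {ι : Type} [Fintype ι] [DecidableEq ι]

/-- transitivity of the action of the unitary group. -/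
theorem exists_smul_one (S : F.SymU ι) :
    ∃ V : unitaryGroup ι ℂ, S = V • (⟨1, one_mem _, transpose_one⟩ : F.SymU ι) := by
  obtain ⟨O, d, hO, hd, hS⟩ := exists_real_diag S.2
  have h1 : ∀ i, ∃ e : ℂ, e ^ 2 = d i := fun i => IsAlgClosed.exists_pow_nat_eq (d i) (by norm_num)
  choose e he using h1
  have hen : ∀ i, ‖e i‖ = 1 := by
    intro i
    have h2 : ‖e i‖ ^ 2 = 1 := by rw [← norm_pow, he, hd]
    have h3 := norm_nonneg (e i)
    nlinarith [sq_nonneg (‖e i‖ - 1), sq_nonneg (‖e i‖ + 1)]
  refine ⟨O * ⟨diagonal e, diagonal_mem_unitaryGroup hen⟩, ?_⟩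
  apply Subtype.ext
  rw [coe_smul, hS]
  change _ = (O.1 * diagonal e) * 1 * (O.1 * diagonal e)ᵀ
  rw [Matrix.mul_one, transpose_mul, diagonal_transpose, ← Matrix.mul_assoc,
    Matrix.mul_assoc O.1 (diagonal e), diagonal_mul_diagonal]
  congr 3
  funext i
  rw [← he i]
  ring

instance : IsTopologicalGroup (unitaryGroup ι ℂ) := inferInstance

/-- the normalised Haar measure on the unitary group -/
noncomputable def haarU (ι : Type) [Fintype ι] [DecidableEq ι] : Measure (unitaryGroup ι ℂ) :=
  Measure.haarMeasure ⊤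

instance : IsProbabilityMeasure (haarU ι) := by
  constructor
  have := Measure.haarMeasure_self (K₀ := (⊤ : TopologicalSpace.PositiveCompacts (unitaryGroup ι ℂ)))
  simpa [haarU] using this

instance : (haarU ι).IsHaarMeasure := by unfold haarU; infer_instance

/-- the matrix `1` as a symmetric unitary matrix -/
def oneS (ι : Type) [Fintype ι] [DecidableEq ι] : F.SymU ι := ⟨1, one_mem _, transpose_one⟩

theorem continuous_det : Continuous (fun S : F.SymU ι => S.1.det) :=
  continuous_subtype_val.matrix_det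

theorem norm_det (S : F.SymU ι) : ‖S.1.det‖ = 1 := by
  have h := congrArg Matrix.det (mem_unitaryGroup_iff.mp S.2.1)
  rw [det_mul, star_eq_conjTranspose, det_conjTranspose, det_one] at h
  have h2 := congrArg norm h
  rw [norm_mul, norm_star, norm_one] at h2
  have h3 := norm_nonneg S.1.det
  nlinarith [sq_nonneg (‖S.1.det‖ - 1), sq_nonneg (‖S.1.det‖ + 1)]

theorem norm_det_unitary (U : unitaryGroup ι ℂ) : ‖U.1.det‖ = 1 := by
  have h := congrArg Matrix.det (mem_unitaryGroup_iff.mp U.2)
  rw [det_mul, star_eq_conjTranspose, det_conjTranspose, det_one] at h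
  have h2 := congrArg norm h
  rw [norm_mul, norm_star, norm_one] at h2
  have h3 := norm_nonneg U.1.det
  nlinarith [sq_nonneg (‖U.1.det‖ - 1), sq_nonneg (‖U.1.det‖ + 1)]

/-- a function which only depends on the channels other than `i₀` -/
def IgnoresCh (i₀ : ι) (h : F.SymU ι → ℂ) : Prop :=
  ∀ (U : unitaryGroup ι ℂ) (w : ℂ), U.1 = diagonal (fun i => if i = i₀ then w else 1) →
    ∀ S, h (U • S) = h S

theorem exists_split (i₀ : ι) (U : unitaryGroup ι ℂ) : ∃ (D U' : unitaryGroup ι ℂ) (w : ℂ),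
    D.1 = diagonal (fun i => if i = i₀ then w else 1) ∧ U'.1.det = 1 ∧ U = D * U' := by
  set w := U.1.det with hw
  have hw1 : ‖w‖ = 1 := norm_det_unitary U
  have hw0 : w ≠ 0 := by
    intro h
    rw [h, norm_zero] at hw1
    exact zero_ne_one hw1
  set D : unitaryGroup ι ℂ := ⟨diagonal (fun i => if i = i₀ then w else 1),
    diagonal_mem_unitaryGroup (by
      intro i
      split_ifs
      · exact hw1
      · exact norm_one)⟩ with hD
  refine ⟨D, D⁻¹ * U, w, rfl, ?_, by rw [mul_inv_cancel_left]⟩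
  have h1 : D.1.det = w := by
    rw [hD, det_diagonal]
    simp
  have h2 : D.1.det * (D⁻¹).1.det = 1 := by
    rw [← det_mul]
    have : D.1 * (D⁻¹).1 = (D * D⁻¹).1 := rfl
    rw [this, mul_inv_cancel]
    exact det_one
  have h3 : (D⁻¹ * U).1 = (D⁻¹).1 * U.1 := rfl
  rw [h3, det_mul, ← hw]
  rw [h1, mul_comm] at h2
  exact h2

theorem det_smul_unitary (U : unitaryGroup ι ℂ) (S : F.SymU ι) :
    (U • S : F.SymU ι).1.det = U.1.det ^ 2 * S.1.det := by
  rw [coe_smul, det_mul, det_mul, det_transpose]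
  ring

theorem integral_smul_ignores {μ : Measure (F.SymU ι)} (hSU : SUInv μ) (i₀ : ι)
    {h : F.SymU ι → ℂ} (hm : Measurable h) (hi : IgnoresCh i₀ h) (k : ℕ) (U : unitaryGroup ι ℂ) :
    ∫ S, S.1.det ^ k * h (U • S) ∂μ = ∫ S, S.1.det ^ k * h S ∂μ := by
  obtain ⟨D, U', w, hD, hU', rfl⟩ := exists_split i₀ U
  have hinv : InvBy μ U' := hSU U' hU'
  have h1 : ∀ S : F.SymU ι, S.1.det ^ k * h ((D * U') • S) =
      (fun T : F.SymU ι => T.1.det ^ k * h T) (U' • S) := by
    intro S
    simp only
    rw [mul_smul, hi D w hD, det_smul_unitary, hU', one_pow, one_mul]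
  simp only [h1]
  conv_rhs => rw [← hinv]
  rw [integral_map (measurable_smul U').aemeasurable]
  exact ((continuous_det.measurable.pow_const k).mul hm).aestronglyMeasurable

/-- **Independence of the determinant.** -/
theorem norm_integral_det_mul_le {μ : Measure (F.SymU ι)} [IsProbabilityMeasure μ]
    (hSU : SUInv μ) (i₀ : ι) {h : F.SymU ι → ℂ} (hm : Measurable h) (hb : ∀ S, ‖h S‖ ≤ 1)
    (hi : IgnoresCh i₀ h) (k : ℕ) :
    ‖∫ S, S.1.det ^ k * h S ∂μ‖ ≤ ‖∫ S, S.1.det ^ k ∂μ‖ := by
  set c : ℂ := ∫ U, h ((U⁻¹ : unitaryGroup ι ℂ) • oneS ι) ∂(haarU ι) with hc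
  have hcb : ‖c‖ ≤ 1 := by
    rw [hc]
    refine (norm_integral_le_integral_norm _).trans ?_
    refine (integral_mono_of_nonneg (Filter.Eventually.of_forall fun _ => norm_nonneg _)
      (integrable_const (1 : ℝ)) (Filter.Eventually.of_forall fun U => hb _)).trans ?_
    simp
  -- the inner average does not depend on `S`
  have hinner : ∀ S : F.SymU ι, ∫ U, h ((U⁻¹ : unitaryGroup ι ℂ) • S) ∂(haarU ι) = c := by
    intro S
    obtain ⟨V, hV⟩ := exists_smul_one S
    have h1 : ∀ U : unitaryGroup ι ℂ, h ((U⁻¹ : unitaryGroup ι ℂ) • S) =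
        (fun W : unitaryGroup ι ℂ => h (W⁻¹ • oneS ι)) (V⁻¹ * U) := by
      intro U
      simp only
      rw [hV, ← mul_smul, _root_.mul_inv_rev, inv_inv]
      rfl
    simp only [h1]
    rw [integral_mul_left_eq_self (μ := haarU ι) (fun W : unitaryGroup ι ℂ => h (W⁻¹ • oneS ι)) V⁻¹]
  have hsm : Measurable (fun p : unitaryGroup ι ℂ × F.SymU ι => (p.1⁻¹ • p.2 : F.SymU ι)) := by
    have : Continuous (fun p : unitaryGroup ι ℂ × F.SymU ι => (p.1⁻¹ • p.2 : F.SymU ι)) := by
      fun_prop
    exact this.measurable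
  have key : ∫ S, S.1.det ^ k * h S ∂μ = c * ∫ S, S.1.det ^ k ∂μ := by
    calc ∫ S, S.1.det ^ k * h S ∂μ
        = ∫ U, ∫ S, S.1.det ^ k * h ((U⁻¹ : unitaryGroup ι ℂ) • S) ∂μ ∂(haarU ι) := by
          have : ∀ U : unitaryGroup ι ℂ, ∫ S, S.1.det ^ k * h ((U⁻¹ : unitaryGroup ι ℂ) • S) ∂μ =
              ∫ S, S.1.det ^ k * h S ∂μ := fun U => integral_smul_ignores hSU i₀ hm hi k _
          simp only [this]
          rw [integral_const]
          simp
      _ = ∫ S, ∫ U, S.1.det ^ k * h ((U⁻¹ : unitaryGroup ι ℂ) • S) ∂(haarU ι) ∂μ := by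
          apply integral_integral_swap
          refine (integrable_const (1 : ℝ)).mono' ?_ ?_
          · refine Measurable.aestronglyMeasurable ?_
            refine ((continuous_det.measurable.comp measurable_snd).pow_const k).mul ?_
            exact hm.comp hsm
          · refine Filter.Eventually.of_forall fun p => ?_
            simp only [Function.uncurry]
            rw [norm_mul, norm_pow, norm_det, one_pow, one_mul]
            exact hb _
      _ = ∫ S, S.1.det ^ k * c ∂μ := by
          refine integral_congr_ae (Filter.Eventually.of_forall fun S => ?_)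
          simp only
          rw [integral_const_mul, hinner S]
      _ = c * ∫ S, S.1.det ^ k ∂μ := by
          rw [integral_mul_const, mul_comm]
  rw [key, norm_mul]
  exact mul_le_of_le_one_left (norm_nonneg _) hcb

end general

variable {κ τ : Type} [Fintype κ] [DecidableEq κ] [Fintype τ] [DecidableEq τ]

theorem SUInv.dInv {ι : Type} [Fintype ι] [DecidableEq ι] {μ : Measure (F.SymU ι)}
    (h : SUInv μ) : DInv μ := fun U _ hdet => h U hdet

open Classical in
/-- the phase acquired by the determinant in a closing -/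
noncomputable def phC (C : F.SymU τ) (k : ℕ) (S : F.SymU (κ ⊕ τ)) : ℂ :=
  if IsUnit (C.1 - S.1.toBlocks₂₂).det then
    ((1 - S.1.toBlocks₂₂ᴴ * C.1).det / (S.1.toBlocks₂₂ - C.1).det) ^ k else 0

theorem det_closeS {C : F.SymU τ} {S : F.SymU (κ ⊕ τ)} (hS : S ∈ goodS (κ := κ) C) (k : ℕ) :
    (closeS C S).1.det ^ k = S.1.det ^ k * phC C k S := by
  have hS' : IsUnit (C.1 - S.1.toBlocks₂₂).det := hS
  have hU' : (S.1.toBlocks₂₂ - C.1).det ≠ 0 := by
    rw [← neg_sub, det_neg]
    exact mul_ne_zero (pow_ne_zero _ (by norm_num)) hS'.ne_zero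
  rw [phC, if_pos hS', coe_closeS hS', ← mul_pow]
  congr 1
  rw [mul_div_assoc', eq_div_iff hU', mul_comm]
  exact det_closeM S.2.1 hS'

theorem norm_phC_le (C : F.SymU τ) (k : ℕ) (S : F.SymU (κ ⊕ τ)) : ‖phC C k S‖ ≤ 1 := by
  by_cases hS : S ∈ goodS (κ := κ) C
  · have h := congrArg norm (det_closeS hS k)
    rw [norm_mul, norm_pow, norm_pow, norm_det, norm_det, one_pow, one_mul] at h
    exact h.symm.le
  · have hS' : ¬ IsUnit (C.1 - S.1.toBlocks₂₂).det := hS
    rw [phC, if_neg hS']
    simp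

theorem measurable_phC (C : F.SymU τ) (k : ℕ) : Measurable (phC (κ := κ) C k) := by
  classical
  unfold phC
  refine Measurable.ite (isOpen_goodS (κ := κ) C).measurableSet ?_ measurable_const
  have hc : Continuous (fun S : F.SymU (κ ⊕ τ) => S.1.toBlocks₂₂) :=
    continuous_matrix fun i j => continuous_subtype_val.matrix_elem _ _
  refine Measurable.pow_const (Measurable.div ?_ ?_) k
  · refine (Continuous.matrix_det ?_).measurable
    exact continuous_const.sub (hc.matrix_conjTranspose.matrix_mul continuous_const)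
  · exact (hc.sub continuous_const).matrix_det.measurable

theorem ignores_phC (k₀ : κ) (C : F.SymU τ) (k : ℕ) : IgnoresCh (Sum.inl k₀) (phC (κ := κ) C k) := by
  intro U w hU S
  have h1 : (U • S : F.SymU (κ ⊕ τ)).1.toBlocks₂₂ = S.1.toBlocks₂₂ := by
    ext a b
    rw [toBlocks₂₂, of_apply, coe_smul, hU]
    simp only [diagonal_transpose, mul_diagonal, diagonal_mul]
    simp [toBlocks₂₂]
  unfold phC
  rw [h1]

/-- the moments of the determinant do not increase under closings. -/
theorem norm_moment_closeS_le [Nonempty κ] {μ : Measure (F.SymU (κ ⊕ τ))} [IsProbabilityMeasure μ]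
    (hSU : SUInv μ) (C : F.SymU τ) (k : ℕ) :
    ‖∫ S, S.1.det ^ k ∂(μ.map (closeS (κ := κ) C))‖ ≤ ‖∫ S, S.1.det ^ k ∂μ‖ := by
  obtain ⟨k₀⟩ := ‹Nonempty κ›
  have : Nonempty κ := ⟨k₀⟩
  have h0 := measure_goodS_compl (κ := κ) (SUInv.dInv hSU) C
  have hk : Continuous (fun S : F.SymU κ => S.1.det ^ k) := continuous_det.pow k
  rw [integral_map (measurable_closeS C).aemeasurable hk.measurable.aestronglyMeasurable]
  have h1 : ∫ S, (closeS (κ := κ) C S).1.det ^ k ∂μ = ∫ S, S.1.det ^ k * phC C k S ∂μ := by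
    refine integral_congr_ae ?_
    have h2 : ∀ᵐ S ∂μ, S ∈ goodS (κ := κ) C := h0
    filter_upwards [h2] with S hS
    exact det_closeS hS k
  rw [h1]
  exact norm_integral_det_mul_le hSU (Sum.inl k₀) (measurable_phC C k) (norm_phC_le C k)
    (ignores_phC k₀ C k) k

end Vale.Agent.P156.H167
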