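import Vale.Agent.P156.H167.SpecXMain
import Vale.Agent.P156.H156.F4Final
import Vale.Agent.P156.H12.Final
import Vale.Agent.P156.H814.TII
import Vale.Agent.P156.H653.Final
import Vale.Agent.P156.H943.PartC

/-! P156: Theorem II, the orthogonal invariance and `SpecS`, unconditional. -/

namespace Vale.Agent.P156.H167

open Vale.Agent.P156

theorem specTII {d : ℕ} (hd : 3 ≤ d) : SpecTII d := by
  refine H814.specTII ?_ hd (H943.specFix hd)
  intro q k lam hq hlam mu _ mue he hs h2 hsupp t0 ht0 hF
  exact H653.wave_of_entropy hq hlam mu mue he hs h2 hsupp ht0 hF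

theorem specOInv {d : ℕ} (hd : 3 ≤ d) : SpecOInv d := H12.specOInv_of_TII (specTII hd)

theorem specX_all {d : ℕ} (hd : 3 ≤ d) : SpecX d := specX (specOInv hd) (B.specZW d)

/-- **Block F, unconditional.** -/
theorem specS {d : ℕ} (hd : 3 ≤ d) : SpecS d :=
  H156.specS_of_specX' hd (fun 𝒰 E E₀ hG K hK μ hμp hμ U => by
    have := hμp
    exact specX_all hd 𝒰 E E₀ hG K hK μ hμ U)

end Vale.Agent.P156.H167
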