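import Vale.Agent.P156.H167.Core
import Vale.Agent.P156.H917.E3p
import Vale.Agent.P156.H144.SpecXBase
import Vale.Agent.P156.F.Extra

/-! P156, block F: the limit law of the scattering matrix of the leads is invariant under the whole
unitary group. -/

open Matrix MeasureTheory Filter Topology
open scoped ComplexConjugate

namespace Vale.Agent.P156.H167

open Vale.Agent.P156

set_option linter.unusedSectionVars false

/-- (L1) from helper558's contraction. -/
theorem strictL1 : StrictL1 := by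
  intro k hk
  obtain ⟨m, rfl⟩ : ∃ m, k = m + 1 := ⟨k - 1, by omega⟩
  obtain ⟨c, hc, h⟩ := F.exists_det_contraction m
  refine ⟨c / 2, by positivity, 1, ?_⟩
  intro t ht μ _ hO hD
  obtain ⟨s, rfl⟩ : ∃ s, t = s + 1 := ⟨t - 1, by omega⟩
  refine (h s μ hO hD 1 norm_one).trans ?_
  refine mul_le_mul_of_nonneg_right ?_ (norm_nonneg _)
  have h0 : (0 : ℝ) ≤ s := Nat.cast_nonneg s
  have h1 : c / 2 / (((s + 1 : ℕ) : ℝ) + 1) ≤ c / ((s : ℝ) + 3) := by
    push_cast
    rw [div_div, div_le_div_iff₀ (by positivity) (by positivity)]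
    nlinarith
  linarith

/-- (L3) from helper558's uniqueness. -/
theorem fullL3 : FullL3 := by
  intro ι _ _ μ _ hSU h U
  exact F.invBy_all hSU (fun m => h (m + 1) (by omega)) U

/-- The laws `H_K`: compressions of the scattering matrix of `K + 1` stars. -/
def HLaw (q : ℕ) : Prop :=
  ∀ (𝒰 : Ultrafilter ℕ) (E : ℕ → ℝ) (E₀ : ℝ), GoodSeq (q + 1) 𝒰 E E₀ → ∀ K : ℕ, 2 ≤ K →
  ∀ (H : Measure (F.SymU ((Fin K × Fin (q + 1)) ⊕ Fin 2))) [IsProbabilityMeasure H],
    Lim.IsLimitLaw (𝒰 : Filter ℕ) (fun n => WW n (q + 1) (K + 1))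
      (fun n ω => toSU (cay (mE (q + 1) (E n)) (H917.comp (leadMat ω (E n : ℂ))))) H →
    F.OInv H ∧ F.DInv H ∧ ∃ Δ : unitaryGroup ((Fin K × Fin (q + 1)) ⊕ Fin 2) ℂ,
      Lim.IsLimitLaw (𝒰 : Filter ℕ) (fun n => WW n (q + 1) (K + 1))
        (fun n ω => toSU (cay (mE (q + 1) (E n)) (H917.edgeMat ω (E n : ℂ))))
        (H.map (fun S => Δ • S))

/-- Full unitary invariance of the limit laws of the scattering matrix of the leads. -/
def SpecX (d : ℕ) : Prop :=
  ∀ (𝒰 : Ultrafilter ℕ) (E : ℕ → ℝ) (E₀ : ℝ), GoodSeq d 𝒰 E E₀ → ∀ K : ℕ, 2 ≤ K →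
  ∀ (μ : Measure (F.SymU (Fin K × Fin d))) [IsProbabilityMeasure μ],
    Lim.IsLimitLaw (𝒰 : Filter ℕ) (fun n => WW n d K) (fun n ω => toSU (SX (E n) ω)) μ →
    ∀ U, F.InvBy μ U

theorem specX_of {q : ℕ} (hH : HLaw q) (hO : SpecOInv (q + 1)) (hZW : SpecZW (q + 1)) :
    SpecX (q + 1) := by
  intro 𝒰 E E₀ hG
  have hq : 2 ≤ q := by have := hG.three; omega
  set d := q + 1 with hd
  -- existence of the limit laws
  have hΛex : ∀ K, ∃ μ : Measure (F.SymU (Fin K × Fin d)), IsProbabilityMeasure μ ∧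
      Lim.IsLimitLaw (𝒰 : Filter ℕ) (fun n => WW n d K) (fun n ω => toSU (SX (E n) ω)) μ :=
    fun K => Lim.exists_isLimitLaw 𝒰 _ _ (H144.good_nonempty hG K)
  choose Λ hΛp hΛ using hΛex
  have hHex : ∀ K, ∃ H : Measure (F.SymU ((Fin K × Fin (q + 1)) ⊕ Fin 2)),
      IsProbabilityMeasure H ∧ Lim.IsLimitLaw (𝒰 : Filter ℕ) (fun n => WW n (q + 1) (K + 1))
      (fun n ω => toSU (cay (mE (q + 1) (E n)) (H917.comp (leadMat ω (E n : ℂ))))) H :=
    fun K => Lim.exists_isLimitLaw 𝒰 _ _ (H144.good_nonempty hG (K + 1))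
  choose H hHp hHl using hHex
  have hm0 : (mE d E₀).im ≠ 0 := (H144.good_im_pos_lim hG).ne'
  have hlim := H144.good_tendsto_mE hG
  have hm : ∀ᶠ n in (𝒰 : Filter ℕ), (mE d (E n)).im ≠ 0 := eventually_im_ne hm0 hlim
  have hHO : ∀ K ≥ 2, F.OInv (H K) := fun K hK => by
    have := hHp K
    exact (hH 𝒰 E E₀ hG K hK (H K) (hHl K)).1
  have hHD : ∀ K ≥ 2, F.DInv (H K) := fun K hK => by
    have := hHp K
    exact (hH 𝒰 E E₀ hG K hK (H K) (hHl K)).2.1
  have hV : ∀ K, ∃ Δ : unitaryGroup ((Fin K × Fin (q + 1)) ⊕ Fin 2) ℂ, 2 ≤ K →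
      Lim.IsLimitLaw (𝒰 : Filter ℕ) (fun n => WW n (q + 1) (K + 1))
        (fun n ω => toSU (cay (mE (q + 1) (E n)) (H917.edgeMat ω (E n : ℂ))))
        ((H K).map (fun S => Δ • S)) := by
    intro K
    by_cases hK : 2 ≤ K
    · have := hHp K
      obtain ⟨Δ, hΔ⟩ := (hH 𝒰 E E₀ hG K hK (H K) (hHl K)).2.2
      exact ⟨Δ, fun _ => hΔ⟩
    · exact ⟨1, fun h => absurd h hK⟩
  choose V hV using hV
  have hOΛ : ∀ K ≥ 2, F.OInv (Λ K) := fun K hK => by
    have := hΛp K
    exact H144.oinv_of_specOInv hO hG hK (hΛ K)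
  -- the chain
  have key := chain_core strictL1 fullL3 (d := d) hG.three Λ hΛp hOΛ H hHp hHO hHD V
    (toSU (cay (mE d E₀) (-H917.Jx))) ?_ ?_
  · intro K hK μ _ hμ U
    have := hΛp K
    have h1 : μ = Λ K := Lim.IsLimitLaw.unique hμ (hΛ K)
    rw [h1]
    exact key K hK U
  · -- closing of the edge
    intro K hK
    have := hΛp K
    have := hHp K
    have hp : IsProbabilityMeasure ((H K).map (fun S => V K • S)) :=
      Measure.isProbabilityMeasure_map (F.measurable_smul (V K)).aemeasurable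
    have hne : Nonempty (Fin K × Fin (q + 1)) := ⟨(⟨0, by omega⟩, ⟨0, by omega⟩)⟩
    have hJ : A.RealSymm (-H917.Jx) :=
      ⟨by rw [conjTranspose_neg, H917.Jx_realSymm.1], by rw [transpose_neg, H917.Jx_realSymm.2]⟩
    have hSU := (suInv_of (hHO K hK) (hHD K hK))
    have hSU' := SUInv.translate hSU (V K)
    refine closing_law (L := (𝒰 : Filter ℕ)) (s := fun n => WW n (q + 1) (K + 1))
      (m := fun n => mE d (E n)) hm0 hlim (R := fun n ω => H917.edgeMat ω (E n : ℂ))
      (Eventually.of_forall fun n ω _ => H917.edgeMat_realSymm ω (E n)) (hV K hK) hJ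
      (measure_goodS_compl (SUInv.dInv hSU') _) (bad := fun n ω => ω ∉ ZZs n (q + 1) (K + 1))
      (H144.good_ZZ hZW hG (K + 1)) (T := fun n ω => leadMat (H917.front ω) (E n : ℂ)) ?_ ?_
    · filter_upwards [hG.trans] with n hn ω hω hb
      have hz : ω ∈ ZZs n (q + 1) (K + 1) := by
        by_contra h
        exact hb h
      exact H917.edge_closeR hn hz
    · intro G
      have h1 := hΛ K G
      refine h1.congr' ?_
      filter_upwards [hG.even] with n hn
      exact (H917.avg_front (by omega) (fun ω => G (toSU (SX (E n) ω)))).symm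
  · -- compression
    intro K hK hOΛ' hDΛ' t ht ρ hρ k
    have := hΛp (K + 1)
    have := hHp K
    obtain ⟨H', hp', hl', -, -, -, hk'⟩ := compress_law (L := (𝒰 : Filter ℕ))
      (H144.good_nonempty hG (K + 1)) hm (H917.Wm q K) (H917.Wm_isometry (by omega))
      (by
        rw [Fintype.card_sum, Fintype.card_fin]
        omega)
      (t := t) (by
        rw [Fintype.card_prod, Fintype.card_fin, Fintype.card_fin]
        exact ht)
      (by
        rw [Fintype.card_sum, Fintype.card_prod, Fintype.card_fin, Fintype.card_fin,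
          Fintype.card_fin]
        have h2 : (K + 1) * d = K * (q + 1) + (q + 1) := by rw [hd]; ring
        omega)
      (R := fun n ω => leadMat ω (E n : ℂ))
      (Eventually.of_forall fun n ω _ => A.leadMat_realSymm ω (E n)) (hΛ (K + 1)) hOΛ' hDΛ' hρ
    have h1 : H K = H' := Lim.IsLimitLaw.unique (hHl K) hl'
    rw [h1]
    exact hk' k

end Vale.Agent.P156.H167
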